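import Vale.Agent.P011.H948.SIalg

/-!
Commutants in division algebras of degree the square of a prime; the derivative of the reduced
characteristic polynomial and the standard intertwiner. Every field.
-/

open Module Polynomial

set_option linter.unusedSectionVars false
set_option linter.unusedVariables false

namespace Vale.Agent.P011.H929

open Vale.Agent.P011.H775 Vale.Agent.P011.H948

section commutant

variable {K D : Type} [Field K] [DivisionRing D] [Algebra K D]

theorem finrank_dvd [FiniteDimensional K D] (A : Subalgebra K D) :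
    finrank K A ∣ finrank K D := by
  let _ : DivisionRing A := divisionRingOfFiniteDimensional K A
  have h : finrank K A * finrank A D = finrank K D := Module.finrank_mul_finrank K A D
  rw [← h]
  exact Dvd.intro _ rfl

theorem finrank_eq_of_ne [FiniteDimensional K D] {p : ℕ} (hp : p.Prime)
    (h : finrank K D = p ^ 2) {A : Subalgebra K D} (h1 : A ≠ ⊥) (h2 : A ≠ ⊤) :
    finrank K A = p := by
  have h3 := finrank_dvd A
  rw [h, Nat.dvd_prime_pow hp] at h3
  obtain ⟨j, hj, hj'⟩ := h3
  interval_cases j
  · exact absurd (Subalgebra.bot_eq_top_of_finrank_eq_one (F := K) (E := A) (by simpa using hj')) (by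
      intro hbt
      apply h1
      rw [eq_bot_iff]
      intro x hx
      have hx' : (⟨x, hx⟩ : A) ∈ (⊥ : Subalgebra K A) := hbt ▸ Algebra.mem_top
      obtain ⟨c, hc⟩ := Algebra.mem_bot.mp hx'
      exact Algebra.mem_bot.mpr ⟨c, congrArg Subtype.val hc⟩)
  · simpa using hj'
  · exfalso
    apply h2
    apply Subalgebra.toSubmodule_injective
    rw [Algebra.top_toSubmodule]
    apply Submodule.eq_top_of_finrank_eq
    rw [h]
    exact hj'

/-- In degree `p` the commutant of a noncentral element is generated by any noncentral element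
commuting with it. -/
theorem centralizer_eq_adjoin [FiniteDimensional K D] [Algebra.IsCentral K D] {p : ℕ}
    (hp : p.Prime) (h : finrank K D = p ^ 2) {w t : D} (hw : w ∉ Set.range (algebraMap K D))
    (ht : t ∉ Set.range (algebraMap K D)) (htw : t * w = w * t) {y : D} (hy : y * w = w * y) :
    y ∈ Algebra.adjoin K {t} := by
  have hcen : ∀ z : D, z ∉ Set.range (algebraMap K D) → ¬ ∀ x : D, x * z = z * x := by
    intro z hz hx
    apply hz
    have : z ∈ Subalgebra.center K D := Subalgebra.mem_center_iff.mpr hx
    rw [Algebra.IsCentral.center_eq_bot] at this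
    exact Algebra.mem_bot.mp this
  have hC1 : Subalgebra.centralizer K {w} ≠ ⊤ := by
    intro h1
    apply hcen w hw
    intro x
    have : x ∈ Subalgebra.centralizer K {w} := h1 ▸ Algebra.mem_top
    exact (Subalgebra.mem_centralizer_iff K).mp this w rfl |>.symm
  have htC : t ∈ Subalgebra.centralizer K {w} := by
    rw [Subalgebra.mem_centralizer_iff]
    rintro _ rfl
    exact htw.symm
  have hC2 : Subalgebra.centralizer K {w} ≠ ⊥ := by
    intro h1
    rw [h1] at htC
    exact ht (Algebra.mem_bot.mp htC)
  have hle : Algebra.adjoin K {t} ≤ Subalgebra.centralizer K {w} :=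
    Algebra.adjoin_le (by rintro _ rfl; exact htC)
  have hA2 : Algebra.adjoin K {t} ≠ ⊥ := by
    intro h1
    have : t ∈ Algebra.adjoin K {t} := Algebra.self_mem_adjoin_singleton K t
    rw [h1] at this
    exact ht (Algebra.mem_bot.mp this)
  have hA1 : Algebra.adjoin K {t} ≠ ⊤ := by
    intro h1
    exact hC1 (top_le_iff.mp (h1 ▸ hle))
  have e : Algebra.adjoin K {t} = Subalgebra.centralizer K {w} := by
    apply Subalgebra.toSubmodule_injective
    apply Submodule.eq_of_le_of_finrank_eq
    · exact hle
    · exact (finrank_eq_of_ne hp h hA2 hA1).trans (finrank_eq_of_ne hp h hC2 hC1).symm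
  rw [e, Subalgebra.mem_centralizer_iff]
  rintro _ rfl
  exact hy.symm

end commutant

section deriv

variable {K D : Type} [Field K] [DivisionRing D] [Algebra K D] (C : Cub K D)

/-- The derivative of the reduced characteristic polynomial of `w` at `w`. -/
def dP (w : D) : D := (3 : K) • (w * w) - (2 * C.T w) • w + C.S w • (1 : D)

theorem dP_comm (w : D) : dP C w * w = w * dP C w := by
  simp only [dP, add_mul, sub_mul, mul_add, mul_sub, smul_mul_assoc, mul_smul_comm, mul_assoc,
    one_mul, mul_one]

theorem dP_eq (w : D) : w * w + w * (w - C.T w • (1 : D)) + C.adj w = dP C w := by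
  rw [C.adj_eq, dP, mul_sub, mul_smul_comm, mul_one]
  have e1 : (3 : K) • (w * w) = w * w + w * w + w * w := by
    rw [show (3 : K) = 1 + 1 + 1 by norm_num, add_smul, add_smul, one_smul]
  have e2 : (2 * C.T w) • w = C.T w • w + C.T w • w := by rw [two_mul, add_smul]
  rw [e1, e2]
  abel

theorem dP_ne_zero' (h30 : (3 : K) ≠ 0) [FiniteDimensional K D] (h : finrank K D = 3 ^ 2)
    {w : D} (hw : w ∉ Set.range (algebraMap K D)) (hc : ¬ ∀ x : D, x * w = w * x) :
    dP C w ≠ 0 := by
  intro h0
  have hA : Algebra.adjoin K {w} ≠ ⊥ := by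
    intro h1
    have : w ∈ Algebra.adjoin K {w} := Algebra.self_mem_adjoin_singleton K w
    rw [h1] at this
    exact hw (Algebra.mem_bot.mp this)
  have hA2 : Algebra.adjoin K {w} ≠ ⊤ := by
    intro h1
    apply hc
    intro x
    have hx : x ∈ Algebra.adjoin K {w} := h1 ▸ Algebra.mem_top
    have hle : Algebra.adjoin K {w} ≤ Subalgebra.centralizer K {w} :=
      Algebra.adjoin_le (by
        rintro _ rfl
        exact (Subalgebra.mem_centralizer_iff K).mpr (by rintro _ rfl; rfl))
    exact ((Subalgebra.mem_centralizer_iff K).mp (hle hx) w rfl).symm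
  have h3 := finrank_eq_of_ne Nat.prime_three h hA hA2
  -- the span of `1, w` is closed under multiplication
  have hww : w * w = (2 * C.T w / 3) • w - (C.S w / 3) • (1 : D) := by
    have h5 : (3 : K) • (w * w) = (2 * C.T w) • w - C.S w • (1 : D) := by
      have h6 : (3 : K) • (w * w) = dP C w + ((2 * C.T w) • w - C.S w • (1 : D)) := by
        rw [dP]; abel
      rw [h6, h0, zero_add]
    have h7 : w * w = (3 : K)⁻¹ • ((3 : K) • (w * w)) := by
      rw [smul_smul, inv_mul_cancel₀ h30, one_smul]
    rw [h7, h5, smul_sub, smul_smul, smul_smul, div_eq_inv_mul, div_eq_inv_mul]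
  have hsub : Subalgebra.toSubmodule (Algebra.adjoin K {w}) ≤ Submodule.span K {1, w} := by
    intro x hx
    have hx' : x ∈ Algebra.adjoin K {w} := hx
    clear hx
    induction hx' using Algebra.adjoin_induction with
    | mem x hx =>
      rw [Set.mem_singleton_iff] at hx
      subst hx
      exact Submodule.subset_span (by simp)
    | algebraMap c =>
      rw [Algebra.algebraMap_eq_smul_one]
      exact Submodule.smul_mem _ _ (Submodule.subset_span (by simp))
    | add x y hx1 hy1 hx2 hy2 => exact add_mem hx2 hy2
    | mul x y hx1 hy1 hx2 hy2 =>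
      obtain ⟨a, b, hab⟩ := Submodule.mem_span_pair.mp hx2
      obtain ⟨a', b', hab'⟩ := Submodule.mem_span_pair.mp hy2
      have e : x * y = (a * a' - b * b' * (C.S w / 3)) • (1 : D) +
          (a * b' + b * a' + b * b' * (2 * C.T w / 3)) • w := by
        have e0 : x * y = (a * a') • (1 : D) + (a * b' + b * a') • w + (b * b') • (w * w) := by
          rw [← hab, ← hab']
          simp only [add_mul, mul_add, smul_mul_assoc, mul_smul_comm, one_mul, mul_one]
          module
        rw [e0, hww]
        module
      rw [e]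
      exact Submodule.mem_span_pair.mpr ⟨_, _, rfl⟩
  have h8 : finrank K (Algebra.adjoin K {w}) ≤ finrank K (Submodule.span K ({1, w} : Set D)) :=
    Submodule.finrank_mono hsub
  have h9 : finrank K (Submodule.span K ({1, w} : Set D)) ≤ 2 := by
    classical
    have h10 := finrank_span_finset_le_card (R := K) (M := D) ({1, w} : Finset D)
    rw [Finset.coe_insert, Finset.coe_singleton] at h10
    exact h10.trans Finset.card_le_two
  omega

theorem dP_ne_zero [CharZero K] [FiniteDimensional K D] (h : finrank K D = 3 ^ 2) {w : D}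
    (hw : w ∉ Set.range (algebraMap K D)) (hc : ¬ ∀ x : D, x * w = w * x) : dP C w ≠ 0 :=
  dP_ne_zero' C (by norm_num) h hw hc

/-- The standard intertwiner in terms of a given one. -/
theorem hr_eq {X w g m : D} (hg : X * g = g * w) (hm : m * w = w * m) :
    hr C X w (g * m) = g * (dP C w * m) := by
  rw [hr, ← dP_eq]
  have e1 : X * X * (g * m) = g * (w * w * m) := by
    rw [← mul_assoc, mul_assoc X X g, hg, ← mul_assoc, hg]
    simp only [mul_assoc]
  have e2 : X * (g * m) * (w - C.T w • (1 : D)) = g * (w * (w - C.T w • (1 : D)) * m) := by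
    rw [← mul_assoc, hg]
    have e3 : m * (w - C.T w • (1 : D)) = (w - C.T w • (1 : D)) * m := by
      rw [mul_sub, sub_mul, hm, mul_smul_comm, smul_mul_assoc, one_mul, mul_one]
    rw [mul_assoc, e3]
    simp only [mul_assoc]
  have e4 : g * m * C.adj w = g * (C.adj w * m) := by
    have e5 : m * C.adj w = C.adj w * m := by
      rw [C.adj_eq]
      simp only [mul_add, mul_sub, add_mul, sub_mul, mul_smul_comm, smul_mul_assoc, one_mul,
        mul_one]
      rw [hm, ← mul_assoc, hm, mul_assoc, hm, ← mul_assoc]
    rw [mul_assoc, e5]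
  rw [e1, e2, e4, ← mul_add, ← mul_add, ← add_mul, ← add_mul]

end deriv

section alg

variable {K D : Type} [Field K] [DivisionRing D] [Algebra K D] (C : Cub K D)

/-- The standard intertwiner in terms of an approximate one. -/
theorem hr_eq' {X w g m : D} (hm : m * w = w * m) :
    hr C X w (g * m) = g * (dP C w * m) + (X * (X * g - g * w) * m + (X * g - g * w) * w * m +
      (X * g - g * w) * (m * (w - C.T w • (1 : D)))) := by
  obtain ⟨e, he⟩ : ∃ e : D, e = X * g - g * w := ⟨_, rfl⟩
  have hg : X * g = g * w + e := by rw [he]; abel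
  rw [← he, hr, ← dP_eq]
  have e1 : X * X * (g * m) = g * (w * w * m) + X * e * m + e * w * m := by
    rw [← mul_assoc, mul_assoc X X g, hg, mul_add, ← mul_assoc, hg]
    noncomm_ring
  have e3 : m * (w - C.T w • (1 : D)) = (w - C.T w • (1 : D)) * m := by
    rw [mul_sub, sub_mul, hm, mul_smul_comm, smul_mul_assoc, one_mul, mul_one]
  have e2 : X * (g * m) * (w - C.T w • (1 : D)) = g * (w * (w - C.T w • (1 : D)) * m) +
      e * (m * (w - C.T w • (1 : D))) := by
    rw [← mul_assoc, hg, mul_assoc, e3]
    generalize w - C.T w • (1 : D) = q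
    noncomm_ring
  have e4 : g * m * C.adj w = g * (C.adj w * m) := by
    have e5 : m * C.adj w = C.adj w * m := by
      rw [C.adj_eq]
      simp only [mul_add, mul_sub, add_mul, sub_mul, mul_smul_comm, smul_mul_assoc, one_mul,
        mul_one]
      rw [hm, ← mul_assoc, hm, mul_assoc, hm, ← mul_assoc]
    rw [mul_assoc, e5]
  rw [e1, e2, e4, add_mul, add_mul, mul_add, mul_add]
  abel

theorem dP_inv {w m : D} (hm : dP C w * m = 1) : m * dP C w = 1 ∧ m * w = w * m := by
  have h1 : m * dP C w = 1 := mul_eq_one_comm.mp hm
  refine ⟨h1, ?_⟩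
  calc m * w = m * w * (dP C w * m) := by rw [hm, mul_one]
    _ = m * (w * dP C w) * m := by simp only [mul_assoc]
    _ = m * (dP C w * w) * m := by rw [dP_comm]
    _ = (m * dP C w) * (w * m) := by simp only [mul_assoc]
    _ = w * m := by rw [h1, one_mul]

end alg

end Vale.Agent.P011.H929
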