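import Vale.Agent.P011.H929.Class1
import Vale.Agent.P011.H929.Class2

/-!
Two unitary elements which are conjugate in the division algebra, and unitarily conjugate up to a
small error at all places, are unitarily conjugate: degree a prime.
-/

open Module NumberField IsDedekindDomain

set_option linter.unusedSectionVars false

namespace Vale.Agent.P011.H929

open Vale.Agent.P011.Arith Vale.Agent.P011.Even Vale.Agent.P011.H182

variable {k K D : Type} [Field k] [NumberField k] [Field K] [StarRing K]
    [DivisionRing D] [StarRing D] [Algebra k K] [Algebra k D] [Algebra K D] [IsScalarTower k K D]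
    {d : kˣ} {s : K}

/-- There is an integral intertwiner of unit norm at `v`: the element `y` is the adjoint of `g`
up to a unit. -/
def GoodInt {N : ℕ} (B : Basis (Fin N) k D) (v : HeightOneSpectrum (𝓞 k)) (w w' : D) : Prop :=
  ∃ (g y : D) (c : k), w' * g = g * w ∧ Ig B (plAbv (Sum.inl v)) g ∧
    Ig B (plAbv (Sum.inl v)) y ∧ y * g = algebraMap k D c ∧ v.valuation k c = 1

/-- There is an almost unitary intertwiner at `q`. -/
def NearU {N : ℕ} (B : Basis (Fin N) k D) (ε : Pl k → ℝ) (q : Pl k) (w w' : D) : Prop :=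
  ∃ g : D, w' * g = g * w ∧ na B (plAbv q) (star g * g - 1) < ε q

theorem inter_comm {w w' g : D} (hw : w * star w = 1) (hw' : w' * star w' = 1)
    (hg : w' * g = g * w) : (star g * g) * w = w * (star g * g) := by
  have h1 : star g * star w' = star w * star g := by
    rw [← star_mul, hg, star_mul]
  have h2 : w * star g = star g * w' := by
    have hww' : star w' * w' = 1 := by
      have h3 := mul_eq_one_comm.mp hw'
      exact h3
    calc w * star g = w * (star g * (star w' * w')) := by rw [hww', mul_one]
      _ = w * (star g * star w') * w' := by simp only [mul_assoc]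
      _ = w * star w * (star g * w') := by rw [h1]; simp only [mul_assoc]
      _ = star g * w' := by rw [hw, one_mul]
  rw [mul_assoc, ← hg, ← mul_assoc, ← h2, mul_assoc]

section field

variable {F : Type} [Field F] [Algebra k F] (i : F →ₐ[k] D)

theorem exists_norm (hS : Setting k K D d s) (hst : ∀ x, star (i x) = i x)
    {w w' : D} (hw : w * star w = 1) (hw' : w' * star w' = 1)
    (hF : ∀ y, y * w = w * y → ∃ a b, y = i a + i b * algebraMap K D s)
    {g : D} (hg : w' * g = g * w) : ∃ x : F, i x = star g * g := by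
  have _ := char_D hS
  obtain ⟨a, b, hab⟩ := hF _ (inter_comm hw hw' hg)
  have h1 : star (star g * g) = star g * g := by rw [star_mul, star_star]
  rw [hab, star_add, star_mul, hst, hst, star_delta hS, neg_mul, delta_comm] at h1
  have h2 : (2 : D) * (i b * algebraMap K D s) = 0 := by
    have h3 := add_left_cancel h1
    rw [two_mul]
    nth_rw 1 [← h3]
    exact neg_add_cancel _
  have h4 : i b * algebraMap K D s = 0 := (mul_eq_zero.mp h2).resolve_left two_ne_zero
  exact ⟨a, by rw [hab, h4, add_zero]⟩

theorem star_mul_self' (hS : Setting k K D d s) (hst : ∀ x, star (i x) = i x) (p q : F) :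
    star (i p + i q * algebraMap K D s) * (i p + i q * algebraMap K D s) =
      i (p ^ 2 - algebraMap k F d * q ^ 2) := by
  have hdc : ∀ x : D, algebraMap K D s * x = x * algebraMap K D s := delta_comm
  have hd2 := delta_sq hS
  have hc : i p * i q = i q * i p := by rw [← map_mul, mul_comm, map_mul]
  rw [star_add, star_mul, hst, hst, star_delta hS, neg_mul, hdc, map_sub, map_mul, AlgHom.commutes,
    ← hd2, sq, sq, map_mul, map_mul]
  rw [add_mul, mul_add, mul_add, neg_mul, neg_mul]
  have e1 : i q * algebraMap K D s * (i q * algebraMap K D s) =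
      algebraMap K D s * algebraMap K D s * (i q * i q) := by
    rw [← hdc, mul_assoc, ← mul_assoc (i q), ← hdc (i q)]
    simp only [mul_assoc]
  have e2 : i q * algebraMap K D s * i p = i p * (i q * algebraMap K D s) := by
    rw [mul_assoc, hdc, ← mul_assoc, ← mul_assoc, hc]
  rw [e1, e2]
  abel

theorem same_class (hS : Setting k K D d s) (hst : ∀ x, star (i x) = i x)
    {w w' : D}
    (hF : ∀ y, y * w = w * y → ∃ a b, y = i a + i b * algebraMap K D s)
    {g g' : D} (hg0 : g ≠ 0) (hg : w' * g = g * w) (hg' : w' * g' = g' * w)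
    {x x' : F} (hx : i x = star g * g) (hx' : i x' = star g' * g') :
    ∃ p q : F, x' = x * (p ^ 2 - algebraMap k F d * q ^ 2) := by
  have h1 : (g⁻¹ * g') * w = w * (g⁻¹ * g') := by
    have h2 : g⁻¹ * w' = w * g⁻¹ := by
      have h3 : g⁻¹ * (w' * g) * g⁻¹ = g⁻¹ * (g * w) * g⁻¹ := by rw [hg]
      rw [← mul_assoc, mul_assoc, mul_inv_cancel₀ hg0, mul_one, ← mul_assoc, inv_mul_cancel₀ hg0,
        one_mul] at h3
      exact h3
    rw [mul_assoc, ← hg', ← mul_assoc, h2, mul_assoc]
  obtain ⟨p, q, hpq⟩ := hF _ h1
  refine ⟨p, q, i.toRingHom.injective ?_⟩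
  change i x' = i (x * (p ^ 2 - algebraMap k F d * q ^ 2))
  have e : g' = g * (i p + i q * algebraMap K D s) := by
    rw [← hpq, ← mul_assoc, mul_inv_cancel₀ hg0, one_mul]
  have hdc : ∀ x : D, algebraMap K D s * x = x * algebraMap K D s := delta_comm
  have hc : ∀ a b : F, i a * i b = i b * i a := fun a b => by rw [← map_mul, mul_comm, map_mul]
  have h2 : star (i p + i q * algebraMap K D s) * i x =
      i x * star (i p + i q * algebraMap K D s) := by
    rw [star_add, star_mul, hst, hst, star_delta hS, neg_mul, hdc, add_mul, mul_add, hc p x,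
      neg_mul, mul_neg, mul_assoc, hdc, ← mul_assoc, ← mul_assoc, hc q x]
  rw [map_mul, ← star_mul_self' i hS hst, hx', e, star_mul, ← mul_assoc (i x), ← h2, hx]
  simp only [mul_assoc]

end field

theorem valuation_alg_units {F : Type} [Field F] [NumberField F] [Algebra k F]
    {u : HeightOneSpectrum (𝓞 F)} {v : HeightOneSpectrum (𝓞 k)}
    (huv : u.asIdeal.comap (algebraMap (𝓞 k) (𝓞 F)) = v.asIdeal)
    (hd : v.valuation k (d : k) = 1) :
    u.valuation F ((Units.map (algebraMap k F : k →* F) d : Fˣ) : F) = WithZero.exp (2 * 0) := by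
  rw [mul_zero, WithZero.exp_zero]
  exact (val_eq_one_iff huv _).mpr hd

/-- The classes of conjugate unitary elements in prime degree are determined locally, uniformly
in the elements. -/
theorem class_global (hS : Setting k K D d s) {p : ℕ} (hp : p.Prime)
    (h : finrank K D = p ^ 2) {N : ℕ} (B : Basis (Fin N) k D) :
    ∃ ε : Pl k → ℝ, (∀ q, 0 < ε q) ∧ ∀ w w' : D, w * star w = 1 → w' * star w' = 1 →
      w ∉ Set.range (algebraMap K D) → (∃ g : D, g ≠ 0 ∧ w' * g = g * w) →
      (∀ v : HeightOneSpectrum (𝓞 k), d ∉ LS (v.valuation k) →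
        (v.valuation k 2 = 1 ∧ v.valuation k (d : k) = 1 ∧ Gd B (plAbv (Sum.inl v)) ∧
          GoodInt B v w w') ∨ NearU B ε (Sum.inl v) w w') →
      (∀ φ : k →+* ℝ, d ∉ LSR φ → NearU B ε (Sum.inr φ) w w') →
      ∃ u : D, u * star u = 1 ∧ w' * u = u * w := by
  have hC := fun q : Pl k => na_mul B (plAbv q)
  choose C hC1 hCm using hC
  have hπ : ∀ v : HeightOneSpectrum (𝓞 k), ∃ π : k, π ≠ 0 ∧ v.valuation k π < 1 := by
    intro v
    obtain ⟨π, h1, h2⟩ := plAbv_nontrivial (F := k) (Sum.inl v)
    rcases lt_or_gt_of_ne h2 with h3 | h3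
    · exact ⟨π, h1, (plAbv_lt_one v π).mp h3⟩
    · refine ⟨π⁻¹, inv_ne_zero h1, (plAbv_lt_one v _).mp ?_⟩
      rw [map_inv₀]
      exact inv_lt_one_of_one_lt₀ h3
  choose π hπ0 hπ1 using hπ
  refine ⟨fun q => match q with
    | .inl v => plAbv (Sum.inl v) (4 * π v) / C (Sum.inl v)
    | .inr φ => 1 / C (Sum.inr φ), ?_, ?_⟩
  · rintro (v | φ)
    · exact div_pos (AbsoluteValue.pos _ (mul_ne_zero (by norm_num) (hπ0 v)))
        (lt_of_lt_of_le one_pos (hC1 _))
    · exact div_pos one_pos (lt_of_lt_of_le one_pos (hC1 _))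
  intro w w' hw hw' hw1 ⟨g, hg0, hg⟩ hfin hreal
  have _ := char_D hS
  obtain ⟨F, _, _, _, i, hst, hiw, hF⟩ := exists_field hS hp h hw hw1
  obtain ⟨x, hx⟩ := exists_norm i hS hst hw hw' hF hg
  have hx0 : x ≠ 0 := by
    rintro rfl
    rw [map_zero] at hx
    exact mul_ne_zero (star_ne_zero.mpr hg0) hg0 hx.symm
  let dF : Fˣ := Units.map (algebraMap k F : k →* F) d
  have hloc : ∀ P : Pl F, Units.mk0 x hx0 ∈ NF dF ⊔ LSp P := by
    -- comparison of two intertwiners
    have hcmp : ∀ (P : Pl F) (g' : D) (x' : F) (hx' : i x' = star g' * g')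
        (hx0' : x' ≠ 0), w' * g' = g' * w → Units.mk0 x' hx0' ∈ NF dF ⊔ LSp P →
        Units.mk0 x hx0 ∈ NF dF ⊔ LSp P := by
      intro P g' x' hx' hx0' hg' hmem
      obtain ⟨a, b, hab⟩ := same_class i hS hst hF hg0 hg hg' hx hx'
      have h1 : a ^ 2 - algebraMap k F d * b ^ 2 ≠ 0 := by
        intro h1
        rw [h1, mul_zero] at hab
        exact hx0' hab
      have h2 : Units.mk0 _ h1 ∈ NF dF ⊔ LSp P := Subgroup.mem_sup_left ⟨a, b, rfl⟩
      have h3 : Units.mk0 x' hx0' = Units.mk0 x hx0 * Units.mk0 _ h1 := Units.ext hab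
      rw [h3] at hmem
      exact (Subgroup.mul_mem_cancel_right _ h2).mp hmem
    rintro (u | ψ)
    · obtain ⟨v, huv⟩ := exists_below (F := k) u
      by_cases hdv : d ∈ LS (v.valuation k)
      · change _ ∈ NF dF ⊔ LS (u.valuation F)
        rw [NF_sup_of_mem' dF (LS_map huv hdv)]
        trivial
      · rcases hfin v hdv with ⟨h2, hd1, hB, g', y, c, hg', hIg, hIy, hyg, hc⟩ | ⟨g', hg', hna⟩
        · obtain ⟨x', hx'⟩ := exists_norm i hS hst hw hw' hF hg'
          have hc0 : c ≠ 0 := by
            rintro rfl
            rw [map_zero] at hc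
            exact zero_ne_one hc
          have hcD : algebraMap k D c ≠ 0 := (map_ne_zero _).mpr hc0
          have hg0' : g' ≠ 0 := by
            rintro rfl
            rw [mul_zero] at hyg
            exact hcD hyg.symm
          have hx0' : x' ≠ 0 := by
            rintro rfl
            rw [map_zero] at hx'
            exact mul_ne_zero (star_ne_zero.mpr hg0') hg0' hx'.symm
          refine hcmp _ g' x' hx' hx0' hg' ?_
          change _ ∈ NF dF ⊔ LS (u.valuation F)
          have h2' : u.valuation F 2 = 1 := by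
            have h2'' := (val_eq_one_iff huv 2).mpr h2
            rwa [map_ofNat] at h2''
          refine unit_norm_even h2' (k := 0) (valuation_alg_units huv hd1) ?_
          have hpow : ∀ z : F, Ig B (plAbv (Sum.inl v)) (i z) →
              ∀ n : ℕ, Ig B (plAbv (Sum.inl v)) (i (z ^ n)) := by
            intro z hz n
            induction n with
            | zero => rw [pow_zero, map_one]; exact hB.one
            | succ n ih => rw [pow_succ, map_mul]; exact hB.mul' ih hz
          have hIa : Ig B (plAbv (Sum.inl v)) (i x') := by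
            rw [hx']
            exact hB.mul' (hB.star (star_k hS) hIg) hIg
          have hIb : Ig B (plAbv (Sum.inl v)) (i x'⁻¹) := by
            have e1 : i x'⁻¹ = (c⁻¹ * c⁻¹) • (y * star y) := by
              have e2 : g'⁻¹ = c⁻¹ • y := by
                symm
                apply eq_inv_of_mul_eq_one_left
                rw [smul_mul_assoc, hyg, Algebra.algebraMap_eq_smul_one, smul_smul,
                  inv_mul_cancel₀ hc0, one_smul]
              rw [map_inv₀, hx', mul_inv_rev, ← star_inv₀, e2, star_k hS, smul_mul_smul_comm]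
            rw [e1]
            refine Gd.smul ?_ (hB.mul' hIy (hB.star (star_k hS) hIy))
            rw [plAbv_le_one, map_mul, map_inv₀, hc, inv_one, one_mul]
          have h5 := val_le_one_of_pow B i huv (hpow _ hIa)
          have h6 := val_le_one_of_pow B i huv (hpow _ hIb)
          rw [map_inv₀, inv_le_one₀ (zero_lt_iff.mpr ((Valuation.ne_zero_iff _).mpr hx0'))] at h6
          exact le_antisymm h5 h6
        · obtain ⟨x', hx'⟩ := exists_norm i hS hst hw hw' hF hg'
          have e1 : i (x' - 1) = star g' * g' - 1 := by rw [map_sub, map_one, hx']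
          have h4 := val_le_of_na B i huv (hC1 (Sum.inl v)) (hCm (Sum.inl v))
            (c := 4 * π v) (mul_ne_zero (by norm_num) (hπ0 v)) (x := x' - 1) (by
              rw [e1, mul_comm, ← le_div_iff₀ (lt_of_lt_of_le one_pos (hC1 _))]
              exact hna.le)
          have h5 : u.valuation F (x' - 1) < u.valuation F 4 := by
            refine lt_of_le_of_lt h4 ?_
            rw [map_mul, map_mul, map_ofNat]
            have h6 : u.valuation F (algebraMap k F (π v)) < 1 := (val_lt_one_iff huv _).mpr (hπ1 v)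
            calc _ < u.valuation F 4 * 1 := mul_lt_mul_of_pos_left h6
                  (zero_lt_iff.mpr (val_four_ne _))
              _ = _ := mul_one _
          have hx0' : x' ≠ 0 := by
            rintro rfl
            rw [zero_sub, Valuation.map_neg, map_one] at h5
            exact absurd (h5.trans_le (val_four_le _)) (lt_irrefl _)
          refine hcmp _ g' x' hx' hx0' hg' (Subgroup.mem_sup_right ?_)
          exact LS_of_close h5
    · by_cases hφ : d ∈ LSR (ψ.comp (algebraMap k F))
      · change _ ∈ NF dF ⊔ LSR ψ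
        have h1 : 0 < ψ (dF : F) := hφ
        by_cases h2 : Units.mk0 x hx0 ∈ LSR ψ
        · exact Subgroup.mem_sup_right h2
        · have h3 : -dF ∈ NF dF ⊔ LSR ψ := Subgroup.mem_sup_left (neg_mem_NF dF)
          have h4 : -dF ∉ LSR ψ := by
            rw [notMem_LSR, Units.val_neg, map_neg]
            linarith
          have h5 := Subgroup.mem_sup_right (S := NF dF) (mul_mem_LSR h2 h4)
          exact (Subgroup.mul_mem_cancel_right _ h3).mp h5
      · obtain ⟨g', hg', hna⟩ := hreal _ hφ
        obtain ⟨x', hx'⟩ := exists_norm i hS hst hw hw' hF hg'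
        have e1 : i (x' - 1) = star g' * g' - 1 := by rw [map_sub, map_one, hx']
        have h4 := real_lt_one_of_na B i ψ (hC1 (Sum.inr (ψ.comp (algebraMap k F))))
          (hCm (Sum.inr (ψ.comp (algebraMap k F)))) (x := x' - 1) (by
            rw [e1, mul_comm, ← lt_div_iff₀ (lt_of_lt_of_le one_pos (hC1 _))]
            exact hna)
        have h5 : 0 < ψ x' := by
          rw [map_sub, map_one, abs_lt] at h4
          linarith [h4.1]
        have hx0' : x' ≠ 0 := by
          rintro rfl
          rw [map_zero] at h5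
          exact lt_irrefl _ h5
        refine hcmp _ g' x' hx' hx0' hg' (Subgroup.mem_sup_right ?_)
        exact h5
  obtain ⟨a, b, hab⟩ := hasse_norm dF (Units.mk0 x hx0) hloc
  have hab' : x = a ^ 2 - algebraMap k F d * b ^ 2 := hab
  obtain ⟨e, he⟩ : ∃ e : D, e = i a + i b * algebraMap K D s := ⟨_, rfl⟩
  have h1 : star e * e = star g * g := by
    rw [he, star_mul_self' i hS hst, ← hab', hx]
  have he0 : e ≠ 0 := by
    rintro rfl
    rw [mul_zero] at h1
    exact mul_ne_zero (star_ne_zero.mpr hg0) hg0 h1.symm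
  have hew : e * w = w * e := by
    rw [he, add_mul, mul_add, hiw, mul_assoc, delta_comm, ← mul_assoc, hiw, mul_assoc]
  refine ⟨g * e⁻¹, ?_, ?_⟩
  · apply mul_eq_one_comm.mp
    rw [star_mul, star_inv₀]
    calc (star e)⁻¹ * star g * (g * e⁻¹) = (star e)⁻¹ * (star g * g) * e⁻¹ := by
          simp only [mul_assoc]
      _ = (star e)⁻¹ * star e * (e * e⁻¹) := by rw [← h1]; simp only [mul_assoc]
      _ = 1 := by rw [inv_mul_cancel₀ (star_ne_zero.mpr he0), mul_inv_cancel₀ he0, one_mul]
  · have h2 : e⁻¹ * w = w * e⁻¹ := by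
      have h3 : Commute e w := hew
      exact h3.inv_left₀.eq
    rw [← mul_assoc, hg, mul_assoc, mul_assoc, h2]

end Vale.Agent.P011.H929
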