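import Vale.Agent.P011.H182.Nma

/-!
Continuity of noncommutative polynomial maps for the sizes of `Nma`.
-/

open Module

set_option linter.unusedSectionVars false
set_option linter.unusedVariables false

namespace Vale.Agent.P011.H929

open Vale.Agent.P011.H182

variable {k D : Type} [Field k] [DivisionRing D] [Algebra k D] {N : ℕ}
  (B : Basis (Fin N) k D) (a : AbsoluteValue k ℝ)

/-- Continuity at the point `(X0, w0)`. -/
def Cts (X0 w0 : D) (f : D → D → D) : Prop :=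
  ∀ η : ℝ, 0 < η → ∃ δ : ℝ, 0 < δ ∧ ∀ X w, na B a (X - X0) < δ → na B a (w - w0) < δ →
    na B a (f X w - f X0 w0) < η

variable {B a} {X0 w0 : D}

theorem Cts.const (c : D) : Cts B a X0 w0 fun _ _ => c := fun η hη =>
  ⟨1, one_pos, fun X w _ _ => by rwa [sub_self, na_zero]⟩

theorem Cts.fst : Cts B a X0 w0 fun X _ => X := fun η hη =>
  ⟨η, hη, fun X w h _ => h⟩

theorem Cts.snd : Cts B a X0 w0 fun _ w => w := fun η hη =>
  ⟨η, hη, fun X w _ h => h⟩

theorem Cts.add {f g : D → D → D} (hf : Cts B a X0 w0 f) (hg : Cts B a X0 w0 g) :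
    Cts B a X0 w0 fun X w => f X w + g X w := by
  intro η hη
  obtain ⟨δ1, h1, hf⟩ := hf (η / 2) (by linarith)
  obtain ⟨δ2, h2, hg⟩ := hg (η / 2) (by linarith)
  refine ⟨min δ1 δ2, lt_min h1 h2, fun X w hX hw => ?_⟩
  have e : f X w + g X w - (f X0 w0 + g X0 w0) = (f X w - f X0 w0) + (g X w - g X0 w0) := by abel
  rw [e]
  have h3 := hf X w (hX.trans_le (min_le_left _ _)) (hw.trans_le (min_le_left _ _))
  have h4 := hg X w (hX.trans_le (min_le_right _ _)) (hw.trans_le (min_le_right _ _))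
  linarith [na_add_le B a (f X w - f X0 w0) (g X w - g X0 w0)]

theorem Cts.neg {f : D → D → D} (hf : Cts B a X0 w0 f) :
    Cts B a X0 w0 fun X w => -f X w := by
  intro η hη
  obtain ⟨δ1, h1, hf⟩ := hf η hη
  refine ⟨δ1, h1, fun X w hX hw => ?_⟩
  have e : -f X w - -f X0 w0 = -(f X w - f X0 w0) := by abel
  rw [e, na_neg]
  exact hf X w hX hw

theorem Cts.sub {f g : D → D → D} (hf : Cts B a X0 w0 f) (hg : Cts B a X0 w0 g) :
    Cts B a X0 w0 fun X w => f X w - g X w := by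
  simp only [sub_eq_add_neg]
  exact hf.add hg.neg

theorem Cts.lin (L : D →ₗ[k] D) {f : D → D → D} (hf : Cts B a X0 w0 f) :
    Cts B a X0 w0 fun X w => L (f X w) := by
  obtain ⟨C, hC, hL⟩ := na_linear B a L
  intro η hη
  obtain ⟨δ1, h1, hf⟩ := hf (η / C) (div_pos hη hC)
  refine ⟨δ1, h1, fun X w hX hw => ?_⟩
  rw [← map_sub]
  refine (hL _).trans_lt ?_
  have h2 := hf X w hX hw
  rw [lt_div_iff₀ hC] at h2
  linarith

theorem Cts.mul {f g : D → D → D} (hf : Cts B a X0 w0 f) (hg : Cts B a X0 w0 g) :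
    Cts B a X0 w0 fun X w => f X w * g X w := by
  obtain ⟨C, hC, hm⟩ := na_mul B a
  intro η hη
  have hf0 := na_nonneg B a (f X0 w0)
  have hg0 := na_nonneg B a (g X0 w0)
  obtain ⟨M, hM⟩ : ∃ M : ℝ, M = C * (2 + na B a (f X0 w0) + na B a (g X0 w0)) := ⟨_, rfl⟩
  have hM0 : 0 < M := by rw [hM]; positivity
  obtain ⟨δ1, h1, hf⟩ := hf (min 1 (η / (2 * M))) (lt_min one_pos (by positivity))
  obtain ⟨δ2, h2, hg⟩ := hg (min 1 (η / (2 * M))) (lt_min one_pos (by positivity))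
  refine ⟨min δ1 δ2, lt_min h1 h2, fun X w hX hw => ?_⟩
  have h3 := hf X w (hX.trans_le (min_le_left _ _)) (hw.trans_le (min_le_left _ _))
  have h4 := hg X w (hX.trans_le (min_le_right _ _)) (hw.trans_le (min_le_right _ _))
  have e : f X w * g X w - f X0 w0 * g X0 w0 = (f X w - f X0 w0) * (g X w - g X0 w0) +
      ((f X w - f X0 w0) * g X0 w0 + f X0 w0 * (g X w - g X0 w0)) := by noncomm_ring
  rw [e]
  obtain ⟨p, hp⟩ : ∃ p, p = na B a (f X w - f X0 w0) := ⟨_, rfl⟩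
  obtain ⟨q, hq⟩ : ∃ q, q = na B a (g X w - g X0 w0) := ⟨_, rfl⟩
  have hp0 : 0 ≤ p := by rw [hp]; exact na_nonneg _ _ _
  have hq0 : 0 ≤ q := by rw [hq]; exact na_nonneg _ _ _
  rw [← hp] at h3
  rw [← hq] at h4
  have k1 := hm (f X w - f X0 w0) (g X w - g X0 w0)
  have k2 := hm (f X w - f X0 w0) (g X0 w0)
  have k3 := hm (f X0 w0) (g X w - g X0 w0)
  rw [← hp] at k1 k2
  rw [← hq] at k1 k3
  have k4 := na_add_le B a ((f X w - f X0 w0) * (g X w - g X0 w0))
      ((f X w - f X0 w0) * g X0 w0 + f X0 w0 * (g X w - g X0 w0))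
  have k5 := na_add_le B a ((f X w - f X0 w0) * g X0 w0) (f X0 w0 * (g X w - g X0 w0))
  have hp1 : p < 1 := h3.trans_le (min_le_left _ _)
  have hp2 : p < η / (2 * M) := h3.trans_le (min_le_right _ _)
  have hq2 : q < η / (2 * M) := h4.trans_le (min_le_right _ _)
  rw [lt_div_iff₀ (by positivity)] at hp2 hq2
  have k6 : C * p * q ≤ C * q := by
    have : p * q ≤ 1 * q := mul_le_mul_of_nonneg_right hp1.le hq0
    nlinarith
  have k7 : C * p * q + C * p * na B a (g X0 w0) + C * na B a (f X0 w0) * q ≤ M * p + M * q := by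
    rw [hM]
    have t1 : 0 ≤ C * p := by positivity
    have t2 : 0 ≤ C * q := by positivity
    have t3 : 0 ≤ C * p * na B a (f X0 w0) := by positivity
    have t4 : 0 ≤ C * q * na B a (g X0 w0) := by positivity
    nlinarith
  linarith

theorem Cts.eq_zero_lt {f : D → D → D} (hf : Cts B a X0 w0 f) {c : D} (h : f X0 w0 = c) {η : ℝ}
    (hη : 0 < η) : ∃ δ : ℝ, 0 < δ ∧ ∀ X w, na B a (X - X0) < δ → na B a (w - w0) < δ →
      na B a (f X w - c) < η := by
  subst h
  exact hf η hη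

end Vale.Agent.P011.H929
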