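import Vale.Agent.P011.H929.Class3
import Vale.Agent.P011.H929.Cts
import Vale.Agent.P011.H948.SIalg

/-!
The standard intertwiner is close to a given one: the classes are locally constant.
-/

open Module NumberField IsDedekindDomain

set_option linter.unusedSectionVars false
set_option linter.unusedVariables false

namespace Vale.Agent.P011.H929

open Vale.Agent.P011.Arith Vale.Agent.P011.Even Vale.Agent.P011.H182 Vale.Agent.P011.H775
  Vale.Agent.P011.H948

section near

variable {k K D : Type} [Field k] [NumberField k] [Field K] [StarRing K]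
    [DivisionRing D] [StarRing D] [Algebra k K] [Algebra k D] [Algebra K D] [IsScalarTower k K D]
    {d : kˣ} {s : K} (C : Cub K D)

/-- The reduced trace as an endomorphism. -/
noncomputable def Tk (k : Type) [Field k] [Algebra k K] [Algebra k D] [IsScalarTower k K D]
    (C : Cub K D) : D →ₗ[k] D :=
  ((LinearMap.toSpanSingleton K D 1) ∘ₗ C.T).restrictScalars k

theorem Tk_apply (x : D) : Tk k C x = C.T x • (1 : D) := rfl

theorem two_S (x : D) : 2 * C.S x = C.T x * C.T x - C.T (x * x) := by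
  have h1 := congrArg C.T (C.adj_eq x)
  rw [map_add, map_sub, map_smul, map_smul, C.T_one, smul_eq_mul, smul_eq_mul] at h1
  have h2 : C.T (C.adj x) = C.S x := rfl
  rw [h2] at h1
  linear_combination -h1

theorem adj_formula (hS : Setting k K D d s) (x : D) : C.adj x =
    x * x - Tk k C x * x + (2⁻¹ : k) • (Tk k C x * Tk k C x - Tk k C (x * x)) := by
  have _ := char_K hS
  rw [C.adj_eq, Tk_apply, Tk_apply, smul_one_mul, smul_mul_smul_comm, one_mul, ← sub_smul,
    ← two_S, ← algebraMap_smul K (2⁻¹ : k), smul_smul, map_inv₀, map_ofNat, inv_mul_cancel_left₀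
      two_ne_zero]

theorem Cts.adj (hS : Setting k K D d s) {N : ℕ} {B : Basis (Fin N) k D} {a : AbsoluteValue k ℝ}
    {X0 w0 : D} {f : D → D → D} (hf : Cts B a X0 w0 f) :
    Cts B a X0 w0 fun X w => C.adj (f X w) := by
  have h1 := (hf.mul hf).sub ((hf.lin (Tk k C)).mul hf)
  have h2 := ((hf.lin (Tk k C)).mul (hf.lin (Tk k C))).sub ((hf.mul hf).lin (Tk k C))
  have h3 := h1.add (h2.lin ((2⁻¹ : k) • LinearMap.id))
  have e : (fun X w => C.adj (f X w)) = fun X w => f X w * f X w - Tk k C (f X w) * f X w +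
      ((2⁻¹ : k) • LinearMap.id (R := k) (M := D)) (Tk k C (f X w) * Tk k C (f X w) -
        Tk k C (f X w * f X w)) := by
    funext X w
    rw [adj_formula C hS]
    rfl
  rw [e]
  exact h3

theorem Cts.hr (hS : Setting k K D d s) {N : ℕ} {B : Basis (Fin N) k D} {a : AbsoluteValue k ℝ}
    {X0 w0 : D} (r : D) : Cts B a X0 w0 fun X w => hr C X w r := by
  have h1 := ((Cts.fst (B := B) (a := a) (X0 := X0) (w0 := w0)).mul Cts.fst).mul (Cts.const r)
  have h2 := ((Cts.fst (B := B) (a := a) (X0 := X0) (w0 := w0)).mul (Cts.const r)).mul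
    (Cts.snd.sub (Cts.snd.lin (Tk k C)))
  have h3 := (Cts.const (B := B) (a := a) (X0 := X0) (w0 := w0) r).mul (Cts.adj C hS Cts.snd)
  exact (h1.add h2).add h3

/-- The standard intertwiner of a pair near `(X1, w1)` is near a given intertwiner of
`(X1, w1)`. -/
theorem near_of_pair (hS : Setting k K D d s) (h9 : finrank K D = 3 ^ 2) {N : ℕ}
    (B : Basis (Fin N) k D) (a : AbsoluteValue k ℝ) {w1 X1 g1 : D}
    (hw1 : w1 ∉ Set.range (algebraMap K D)) (hX1 : X1 * g1 = g1 * w1) {η : ℝ} (hη : 0 < η) :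
    ∃ δ : ℝ, 0 < δ ∧ ∀ X w, na B a (X - X1) < δ → na B a (w - w1) < δ →
      C.T X = C.T w → C.S X = C.S w → C.N X = C.N w →
      X * H948.hr C X w (g1 * (dP C w1)⁻¹) = H948.hr C X w (g1 * (dP C w1)⁻¹) * w ∧
      na B a (H948.hr C X w (g1 * (dP C w1)⁻¹) - g1) < η ∧
      na B a (star (H948.hr C X w (g1 * (dP C w1)⁻¹)) * H948.hr C X w (g1 * (dP C w1)⁻¹) -
        star g1 * g1) < η := by
  have _ := hS.fin
  have _ := hS.cen
  have _ := char_K hS
  have hc : ¬ ∀ x : D, x * w1 = w1 * x := by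
    intro hx
    apply hw1
    have : w1 ∈ Subalgebra.center K D := Subalgebra.mem_center_iff.mpr hx
    rw [Algebra.IsCentral.center_eq_bot] at this
    exact Algebra.mem_bot.mp this
  have h0 := dP_ne_zero C h9 hw1 hc
  have hm : (dP C w1)⁻¹ * w1 = w1 * (dP C w1)⁻¹ := by
    have h1 : Commute (dP C w1) w1 := dP_comm C w1
    exact h1.inv_left₀.eq
  have e1 : H948.hr C X1 w1 (g1 * (dP C w1)⁻¹) = g1 := by
    rw [hr_eq C hX1 hm, mul_inv_cancel₀ h0, mul_one]
  let σ : D →ₗ[k] D := { toFun := star, map_add' := star_add, map_smul' := star_k hS }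
  have h1 := Cts.hr C hS (B := B) (a := a) (X0 := X1) (w0 := w1) (g1 * (dP C w1)⁻¹)
  have h2 := (h1.lin σ).mul h1
  obtain ⟨δ1, hδ1, h1⟩ := h1 η hη
  obtain ⟨δ2, hδ2, h2⟩ := h2 η hη
  refine ⟨min δ1 δ2, lt_min hδ1 hδ2, fun X w hX hw hT hS' hN => ⟨hr_conj C hT hS' hN _, ?_, ?_⟩⟩
  · have h3 := h1 X w (hX.trans_le (min_le_left _ _)) (hw.trans_le (min_le_left _ _))
    beta_reduce at h3
    rwa [e1] at h3
  · have h3 := h2 X w (hX.trans_le (min_le_right _ _)) (hw.trans_le (min_le_right _ _))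
    beta_reduce at h3
    rw [e1] at h3
    exact h3

end near

end Vale.Agent.P011.H929
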