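import Vale.Agent.P011.H182.Nma

/-!
Noncommutative polynomial maps are bounded and uniformly continuous on bounded sets.
-/

open Module

set_option linter.unusedSectionVars false
set_option linter.unusedVariables false

namespace Vale.Agent.P011.H929

open Vale.Agent.P011.H182

variable {k D : Type} [Field k] [DivisionRing D] [Algebra k D] {N : ℕ}
  (B : Basis (Fin N) k D) (a : AbsoluteValue k ℝ) {ι : Type}

/-- Bounded and uniformly continuous on bounded sets. -/
def LU (f : (ι → D) → D) : Prop :=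
  ∀ R : ℝ, ∃ M : ℝ, (∀ x, (∀ i, na B a (x i) ≤ R) → na B a (f x) ≤ M) ∧
    ∀ η : ℝ, 0 < η → ∃ δ : ℝ, 0 < δ ∧ ∀ x y, (∀ i, na B a (x i) ≤ R) → (∀ i, na B a (y i) ≤ R) →
      (∀ i, na B a (x i - y i) < δ) → na B a (f x - f y) < η

variable {B a}

theorem LU.const (c : D) : LU B a fun _ : ι → D => c := fun R =>
  ⟨na B a c, fun _ _ => le_rfl, fun η hη => ⟨1, one_pos, fun _ _ _ _ _ => by
    rwa [sub_self, na_zero]⟩⟩

theorem LU.proj (i : ι) : LU B a fun x : ι → D => x i := fun R =>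
  ⟨R, fun _ h => h i, fun η hη => ⟨η, hη, fun _ _ _ _ h => h i⟩⟩

theorem LU.add {f g : (ι → D) → D} (hf : LU B a f) (hg : LU B a g) :
    LU B a fun x => f x + g x := by
  intro R
  obtain ⟨M1, hM1, hf⟩ := hf R
  obtain ⟨M2, hM2, hg⟩ := hg R
  refine ⟨M1 + M2, fun x hx => (na_add_le B a _ _).trans (add_le_add (hM1 x hx) (hM2 x hx)), ?_⟩
  intro η hη
  obtain ⟨δ1, h1, hf⟩ := hf (η / 2) (by linarith)
  obtain ⟨δ2, h2, hg⟩ := hg (η / 2) (by linarith)
  refine ⟨min δ1 δ2, lt_min h1 h2, fun x y hx hy hxy => ?_⟩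
  have e : f x + g x - (f y + g y) = (f x - f y) + (g x - g y) := by abel
  rw [e]
  have h3 := hf x y hx hy fun i => (hxy i).trans_le (min_le_left _ _)
  have h4 := hg x y hx hy fun i => (hxy i).trans_le (min_le_right _ _)
  linarith [na_add_le B a (f x - f y) (g x - g y)]

theorem LU.neg {f : (ι → D) → D} (hf : LU B a f) : LU B a fun x => -f x := by
  intro R
  obtain ⟨M1, hM1, hf⟩ := hf R
  refine ⟨M1, fun x hx => by rw [na_neg]; exact hM1 x hx, fun η hη => ?_⟩
  obtain ⟨δ1, h1, hf⟩ := hf η hη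
  refine ⟨δ1, h1, fun x y hx hy hxy => ?_⟩
  have e : -f x - -f y = -(f x - f y) := by abel
  rw [e, na_neg]
  exact hf x y hx hy hxy

theorem LU.sub {f g : (ι → D) → D} (hf : LU B a f) (hg : LU B a g) :
    LU B a fun x => f x - g x := by
  simp only [sub_eq_add_neg]
  exact hf.add hg.neg

theorem LU.lin (L : D →ₗ[k] D) {f : (ι → D) → D} (hf : LU B a f) : LU B a fun x => L (f x) := by
  obtain ⟨C, hC, hL⟩ := na_linear B a L
  intro R
  obtain ⟨M1, hM1, hf⟩ := hf R
  refine ⟨C * M1, fun x hx => (hL _).trans (mul_le_mul_of_nonneg_left (hM1 x hx) hC.le),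
    fun η hη => ?_⟩
  obtain ⟨δ1, h1, hf⟩ := hf (η / C) (div_pos hη hC)
  refine ⟨δ1, h1, fun x y hx hy hxy => ?_⟩
  rw [← map_sub]
  refine (hL _).trans_lt ?_
  have h2 := hf x y hx hy hxy
  rw [lt_div_iff₀ hC] at h2
  linarith

theorem LU.mul {f g : (ι → D) → D} (hf : LU B a f) (hg : LU B a g) :
    LU B a fun x => f x * g x := by
  obtain ⟨C, hC, hm⟩ := na_mul B a
  intro R
  obtain ⟨M1, hM1, hf⟩ := hf R
  obtain ⟨M2, hM2, hg⟩ := hg R
  by_cases hne : ∃ x : ι → D, ∀ i, na B a (x i) ≤ R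
  swap
  · push Not at hne
    refine ⟨0, fun x hx => ?_, fun η hη => ⟨1, one_pos, fun x y hx hy hxy => ?_⟩⟩
    · obtain ⟨i, hi⟩ := hne x
      exact absurd (hx i) (not_le.mpr hi)
    · obtain ⟨i, hi⟩ := hne x
      exact absurd (hx i) (not_le.mpr hi)
  obtain ⟨x0, hx0⟩ := hne
  have hM1' : 0 ≤ M1 := (na_nonneg _ _ _).trans (hM1 x0 hx0)
  have hM2' : 0 ≤ M2 := (na_nonneg _ _ _).trans (hM2 x0 hx0)
  refine ⟨C * M1 * M2, fun x hx => ?_, fun η hη => ?_⟩
  · refine (hm _ _).trans ?_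
    have h1 := hM1 x hx
    have h2 := hM2 x hx
    have h3 := na_nonneg B a (f x)
    have h4 := na_nonneg B a (g x)
    exact mul_le_mul (mul_le_mul_of_nonneg_left h1 (by linarith)) h2 h4 (by positivity)
  · obtain ⟨M, hM⟩ : ∃ M : ℝ, M = C * (1 + M1 + M2) := ⟨_, rfl⟩
    have hM0 : 0 < M := by rw [hM]; positivity
    obtain ⟨δ1, h1, hf⟩ := hf (η / (2 * M)) (by positivity)
    obtain ⟨δ2, h2, hg⟩ := hg (η / (2 * M)) (by positivity)
    refine ⟨min δ1 δ2, lt_min h1 h2, fun x y hx hy hxy => ?_⟩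
    have h3 := hf x y hx hy fun i => (hxy i).trans_le (min_le_left _ _)
    have h4 := hg x y hx hy fun i => (hxy i).trans_le (min_le_right _ _)
    have e : f x * g x - f y * g y = (f x - f y) * g x + f y * (g x - g y) := by noncomm_ring
    rw [e]
    obtain ⟨p, hp⟩ : ∃ p, p = na B a (f x - f y) := ⟨_, rfl⟩
    obtain ⟨q, hq⟩ : ∃ q, q = na B a (g x - g y) := ⟨_, rfl⟩
    have hp0 : 0 ≤ p := by rw [hp]; exact na_nonneg _ _ _
    have hq0 : 0 ≤ q := by rw [hq]; exact na_nonneg _ _ _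
    rw [← hp] at h3
    rw [← hq] at h4
    have k2 := hm (f x - f y) (g x)
    have k3 := hm (f y) (g x - g y)
    rw [← hp] at k2
    rw [← hq] at k3
    have k5 := na_add_le B a ((f x - f y) * g x) (f y * (g x - g y))
    have h5 := hM2 x hx
    have h6 := hM1 y hy
    rw [lt_div_iff₀ (by positivity)] at h3 h4
    have k6 : C * p * na B a (g x) ≤ C * p * M2 := mul_le_mul_of_nonneg_left h5 (by positivity)
    have k7 : C * na B a (f y) * q ≤ C * M1 * q :=
      mul_le_mul_of_nonneg_right (mul_le_mul_of_nonneg_left h6 (by linarith)) hq0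
    have k8 : C * p * M2 + C * M1 * q ≤ M * p + M * q := by
      rw [hM]
      have t1 : 0 ≤ C * p := by positivity
      have t2 : 0 ≤ C * q := by positivity
      have t3 : 0 ≤ C * p * M1 := by positivity
      have t4 : 0 ≤ C * q * M2 := by positivity
      nlinarith
    linarith

end Vale.Agent.P011.H929
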