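import Vale.Agent.P011.H929.Class4
import Vale.Agent.P011.H929.LU

/-!
Approximate local pairs, and the standard intertwiner near them.
-/

open Module NumberField IsDedekindDomain

set_option linter.unusedSectionVars false
set_option linter.unusedVariables false

namespace Vale.Agent.P011.H929

open Vale.Agent.P011.Arith Vale.Agent.P011.Even Vale.Agent.P011.H182 Vale.Agent.P011.H775
  Vale.Agent.P011.H948

variable {k K D : Type} [Field k] [NumberField k] [Field K] [StarRing K]
    [DivisionRing D] [StarRing D] [Algebra k K] [Algebra k D] [Algebra K D] [IsScalarTower k K D]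
    {d : kˣ} {s : K} (C : Cub K D)

/-- An approximate pair `w, g` of unitary elements with `x w g = g w`, with uniform bounds,
`m` is the inverse of the derivative of the characteristic polynomial at `w`. -/
def LocPair {N : ℕ} (B : Basis (Fin N) k D) (a : AbsoluteValue k ℝ) (x : D) : Prop :=
  ∃ R : ℝ, ∀ δ : ℝ, 0 < δ → ∃ w g m : D, na B a w ≤ R ∧ na B a g ≤ R ∧ na B a m ≤ R ∧
    dP C w * m = 1 ∧ na B a (star w * w - 1) < δ ∧ na B a (star g * g - 1) < δ ∧
    na B a (x * w * g - g * w) < δ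

theorem LU.adj (hS : Setting k K D d s) {ι : Type} {N : ℕ} {B : Basis (Fin N) k D}
    {a : AbsoluteValue k ℝ} {f : (ι → D) → D} (hf : LU B a f) :
    LU B a fun x => C.adj (f x) := by
  have h1 := (hf.mul hf).sub ((hf.lin (Tk k C)).mul hf)
  have h2 := ((hf.lin (Tk k C)).mul (hf.lin (Tk k C))).sub ((hf.mul hf).lin (Tk k C))
  have h3 := h1.add (h2.lin ((2⁻¹ : k) • LinearMap.id))
  have e : (fun x => C.adj (f x)) = fun x => f x * f x - Tk k C (f x) * f x +
      ((2⁻¹ : k) • LinearMap.id (R := k) (M := D)) (Tk k C (f x) * Tk k C (f x) -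
        Tk k C (f x * f x)) := by
    funext x
    rw [adj_formula C hS]
    rfl
  rw [e]
  exact h3

theorem LU.hr (hS : Setting k K D d s) {ι : Type} {N : ℕ} {B : Basis (Fin N) k D}
    {a : AbsoluteValue k ℝ} {X w r : (ι → D) → D} (hX : LU B a X) (hw : LU B a w)
    (hr : LU B a r) : LU B a fun x => H948.hr C (X x) (w x) (r x) := by
  have h1 := (hX.mul hX).mul hr
  have h2 := (hX.mul hr).mul (hw.sub (hw.lin (Tk k C)))
  have h3 := hr.mul (LU.adj C hS hw)
  exact (h1.add h2).add h3

/-- The standard intertwiner of `(x w, w)` is near the given approximate intertwiner at `w1`,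
uniformly. -/
theorem near_unif (hS : Setting k K D d s) {N : ℕ} (B : Basis (Fin N) k D)
    (a : AbsoluteValue k ℝ) (x : D) (R : ℝ) {η : ℝ} (hη : 0 < η) :
    ∃ δ : ℝ, 0 < δ ∧ ∀ w1 g1 m1 : D, na B a w1 ≤ R → na B a g1 ≤ R → na B a m1 ≤ R →
      dP C w1 * m1 = 1 → na B a (x * w1 * g1 - g1 * w1) < δ → ∀ w, na B a (w - w1) < δ →
      C.T (x * w) = C.T w → C.S (x * w) = C.S w → C.N (x * w) = C.N w →
      x * w * H948.hr C (x * w) w (g1 * m1) = H948.hr C (x * w) w (g1 * m1) * w ∧
      na B a (H948.hr C (x * w) w (g1 * m1) - g1) < η ∧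
      na B a (star (H948.hr C (x * w) w (g1 * m1)) * H948.hr C (x * w) w (g1 * m1) -
        star g1 * g1) < η := by
  -- the intertwiner as a function of `w`, `g`, `m`
  have hf : LU B a fun v : Fin 3 → D => H948.hr C (x * v 0) (v 0) (v 1 * v 2) :=
    LU.hr C hS ((LU.const x).mul (LU.proj 0)) (LU.proj 0) ((LU.proj 1).mul (LU.proj 2))
  -- the error as a function of `w`, `m`, `e`
  have hG : LU B a fun v : Fin 3 → D => x * v 0 * v 2 * v 1 + v 2 * v 0 * v 1 +
      v 2 * (v 1 * (v 0 - Tk k C (v 0))) :=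
    (((((LU.const x).mul (LU.proj 0)).mul (LU.proj 2)).mul (LU.proj 1)).add
      (((LU.proj 2).mul (LU.proj 0)).mul (LU.proj 1))).add
      ((LU.proj 2).mul ((LU.proj 1).mul ((LU.proj 0).sub ((LU.proj 0).lin (Tk k C)))))
  let σ : D →ₗ[k] D := { toFun := star, map_add' := star_add, map_smul' := star_k hS }
  have hs : LU B a fun v : Fin 1 → D => σ (v 0) * v 0 := ((LU.proj 0).lin σ).mul (LU.proj 0)
  -- the constants
  obtain ⟨-, -, hs⟩ := hs (|R| + 1)
  obtain ⟨δ0, hδ0, hs⟩ := hs η hη
  have hη' : 0 < min (min η δ0) 1 / 2 := by positivity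
  obtain ⟨-, -, hf⟩ := hf (|R| + 1)
  obtain ⟨δ1, hδ1, hf⟩ := hf _ hη'
  obtain ⟨-, -, hG⟩ := hG (|R| + 1)
  obtain ⟨δ2, hδ2, hG⟩ := hG _ hη'
  refine ⟨min (min δ1 δ2) 1, by positivity, ?_⟩
  intro w1 g1 m1 hw1 hg1 hm1 hdP he w hw hT hS' hN
  have hR := le_abs_self R
  have hδa : min (min δ1 δ2) 1 ≤ δ1 := (min_le_left _ _).trans (min_le_left _ _)
  have hδb : min (min δ1 δ2) 1 ≤ δ2 := (min_le_left _ _).trans (min_le_right _ _)
  have hδc : min (min δ1 δ2) 1 ≤ 1 := min_le_right _ _
  have hwR : na B a w ≤ |R| + 1 := by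
    have e : w = (w - w1) + w1 := by abel
    rw [e]
    refine (na_add_le B a _ _).trans ?_
    linarith
  obtain ⟨hm2, hm3⟩ := dP_inv C hdP
  -- the value at the approximate point
  have h1 : na B a (H948.hr C (x * w1) w1 (g1 * m1) - g1) < min (min η δ0) 1 / 2 := by
    rw [hr_eq' C hm3, hdP, mul_one, add_sub_cancel_left]
    have h2 := hG ![w1, m1, x * w1 * g1 - g1 * w1] ![w1, m1, 0]
      (by
        intro i
        fin_cases i
        · change na B a w1 ≤ _; linarith
        · change na B a m1 ≤ _; linarith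
        · change na B a (x * w1 * g1 - g1 * w1) ≤ _; linarith [abs_nonneg R])
      (by
        intro i
        fin_cases i
        · change na B a w1 ≤ _; linarith
        · change na B a m1 ≤ _; linarith
        · change na B a (0 : D) ≤ _
          rw [na_zero]
          positivity)
      (by
        intro i
        fin_cases i
        · change na B a (w1 - w1) < _
          rw [sub_self, na_zero]
          exact hδ2
        · change na B a (m1 - m1) < _
          rw [sub_self, na_zero]
          exact hδ2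
        · change na B a (x * w1 * g1 - g1 * w1 - 0) < _
          rw [sub_zero]
          linarith)
    have e0 : x * w1 * 0 * m1 + 0 * w1 * m1 + 0 * (m1 * (w1 - Tk k C w1)) = 0 := by
      simp
    change na B a (x * w1 * (x * w1 * g1 - g1 * w1) * m1 + (x * w1 * g1 - g1 * w1) * w1 * m1 +
      (x * w1 * g1 - g1 * w1) * (m1 * (w1 - Tk k C w1)) -
        (x * w1 * 0 * m1 + 0 * w1 * m1 + 0 * (m1 * (w1 - Tk k C w1)))) < _ at h2
    rw [e0, sub_zero] at h2
    exact h2
  have h3 : na B a (H948.hr C (x * w) w (g1 * m1) - H948.hr C (x * w1) w1 (g1 * m1)) <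
      min (min η δ0) 1 / 2 := by
    refine hf ![w, g1, m1] ![w1, g1, m1] ?_ ?_ ?_
    · intro i
      fin_cases i
      · exact hwR
      · change na B a g1 ≤ _; linarith
      · change na B a m1 ≤ _; linarith
    · intro i
      fin_cases i
      · change na B a w1 ≤ _; linarith
      · change na B a g1 ≤ _; linarith
      · change na B a m1 ≤ _; linarith
    · intro i
      fin_cases i
      · change na B a (w - w1) < _; linarith
      · change na B a (g1 - g1) < _
        rw [sub_self, na_zero]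
        exact hδ1
      · change na B a (m1 - m1) < _
        rw [sub_self, na_zero]
        exact hδ1
  have h4 : na B a (H948.hr C (x * w) w (g1 * m1) - g1) < min (min η δ0) 1 := by
    have e : H948.hr C (x * w) w (g1 * m1) - g1 =
        (H948.hr C (x * w) w (g1 * m1) - H948.hr C (x * w1) w1 (g1 * m1)) +
          (H948.hr C (x * w1) w1 (g1 * m1) - g1) := by abel
    rw [e]
    refine (na_add_le B a _ _).trans_lt ?_
    linarith
  have hηa : min (min η δ0) 1 ≤ η := (min_le_left _ _).trans (min_le_left _ _)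
  have hηb : min (min η δ0) 1 ≤ δ0 := (min_le_left _ _).trans (min_le_right _ _)
  have hηc : min (min η δ0) 1 ≤ 1 := min_le_right _ _
  refine ⟨hr_conj C hT hS' hN _, h4.trans_le hηa, ?_⟩
  refine hs ![H948.hr C (x * w) w (g1 * m1)] ![g1] ?_ ?_ ?_
  · intro i
    fin_cases i
    change na B a (H948.hr C (x * w) w (g1 * m1)) ≤ _
    have e : H948.hr C (x * w) w (g1 * m1) = (H948.hr C (x * w) w (g1 * m1) - g1) + g1 := by abel
    rw [e]
    refine (na_add_le B a _ _).trans ?_
    linarith
  · intro i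
    fin_cases i
    change na B a g1 ≤ _
    linarith
  · intro i
    fin_cases i
    change na B a (H948.hr C (x * w) w (g1 * m1) - g1) < _
    linarith

/-- Near an approximate local pair there are almost unitary intertwiners. -/
theorem nearU_of_locPair (hS : Setting k K D d s) {N : ℕ} (B : Basis (Fin N) k D) (q : Pl k)
    {x : D} (h : LocPair C B (plAbv q) x) (ε : Pl k → ℝ) (hε : ∀ q, 0 < ε q) :
    ∃ R : ℝ, ∃ δ : ℝ, 0 < δ ∧ ∀ δ' : ℝ, 0 < δ' → ∃ w1 g1 m1 : D, na B (plAbv q) w1 ≤ R ∧
      na B (plAbv q) g1 ≤ R ∧ na B (plAbv q) m1 ≤ R ∧ dP C w1 * m1 = 1 ∧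
      na B (plAbv q) (star w1 * w1 - 1) < δ' ∧ na B (plAbv q) (star g1 * g1 - 1) < δ' ∧
      na B (plAbv q) (x * w1 * g1 - g1 * w1) < δ' ∧
      ∀ w, na B (plAbv q) (w - w1) < δ → C.T (x * w) = C.T w → C.S (x * w) = C.S w →
        C.N (x * w) = C.N w → NearU B ε q w (x * w) := by
  obtain ⟨R, hR⟩ := h
  obtain ⟨δ, hδ, hnear⟩ := near_unif C hS B (plAbv q) x R (half_pos (hε q))
  refine ⟨R, δ, hδ, fun δ' hδ' => ?_⟩
  obtain ⟨w1, g1, m1, h1, h2, h3, h4, h5, h6, h7⟩ :=
    hR (min (min δ δ') (ε q / 2)) (by have := hε q; positivity)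
  have ha : min (min δ δ') (ε q / 2) ≤ δ := (min_le_left _ _).trans (min_le_left _ _)
  have hb : min (min δ δ') (ε q / 2) ≤ δ' := (min_le_left _ _).trans (min_le_right _ _)
  have hc : min (min δ δ') (ε q / 2) ≤ ε q / 2 := min_le_right _ _
  refine ⟨w1, g1, m1, h1, h2, h3, h4, by linarith, by linarith, by linarith, ?_⟩
  intro w hw hT hS' hN
  obtain ⟨k1, -, k3⟩ := hnear w1 g1 m1 h1 h2 h3 h4 (h7.trans_le ha) w hw hT hS' hN
  refine ⟨_, k1, ?_⟩
  have e : star (H948.hr C (x * w) w (g1 * m1)) * H948.hr C (x * w) w (g1 * m1) - 1 =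
      (star (H948.hr C (x * w) w (g1 * m1)) * H948.hr C (x * w) w (g1 * m1) - star g1 * g1) +
        (star g1 * g1 - 1) := by abel
  rw [e]
  refine (na_add_le B _ _ _).trans_lt ?_
  linarith

end Vale.Agent.P011.H929
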