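import Vale.Agent.P011.Hey.Final
import Vale.Agent.P011.Hey.H63.Loc
import Mathlib.Algebra.QuadraticAlgebra.NormDeterminant

/-!
The Hasse norm theorem for the quadratic extension generated by a square root over a global
function field, with local criteria.
-/

open Module Polynomial TensorProduct

set_option linter.unusedSectionVars false
set_option linter.unusedVariables false
set_option linter.style.haveILetI false

namespace Vale.Agent.P011.H929.FF

open Vale.Agent.P011.H738 Vale.Agent.P011.H271 Vale.Agent.P011.Hey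

section quad

variable {F : Type} [Field F] {d : F} [hab : Fact (∀ r : F, r ^ 2 ≠ d + 0 * r)]

/-- The field generated by a square root of `d`. -/
abbrev QE (d : F) : Type := QuadraticAlgebra F d 0

theorem norm_quad (z : QE d) : Algebra.norm F z = z.re ^ 2 - d * z.im ^ 2 := by
  have h1 : Algebra.norm F z = (DistribSMul.toLinearMap F (QE d) z).det := rfl
  rw [h1, QuadraticAlgebra.det_toLinearMap_eq_norm, QuadraticAlgebra.norm_def]
  ring

/-- The generator. -/
def om (d : F) : QE d := ⟨0, 1⟩

theorem om_sq : om d * om d = algebraMap F (QE d) d := by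
  ext <;> simp [om, QuadraticAlgebra.algebraMap_re]

theorem eq_om (z : QE d) : z = algebraMap F (QE d) z.re + algebraMap F (QE d) z.im * om d := by
  ext <;> simp [om]

theorem om_ne (c : F) : algebraMap F (QE d) c ≠ om d := by
  intro h
  have h1 := congrArg QuadraticAlgebra.im h
  simp [om] at h1

theorem sep_quad (h2 : (2 : F) ≠ 0) (hd : d ≠ 0) : Algebra.IsSeparable F (QE d) := by
  have h1 : IsSeparable F (om d) := by
    have h3 : (X ^ 2 - C d : F[X]).Separable := separable_X_pow_sub_C d (by exact_mod_cast h2) hd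
    refine h3.of_dvd (minpoly.dvd F _ ?_)
    rw [map_sub, map_pow, aeval_X, aeval_C, sq, om_sq, sub_self]
  refine ⟨fun z => ?_⟩
  rw [eq_om z]
  exact Field.isSeparable_add (isSeparable_algebraMap _)
    (Field.isSeparable_mul (isSeparable_algebraMap _) h1)

end quad

section comp

variable {F : Type} [Field F] [GFF F]

/-- The absolute value of two. -/
theorem abv_two (h2 : (2 : F) ≠ 0) (P : Place F) : P.abv 2 = 1 := by
  obtain ⟨F0, _, _, φ, -⟩ := GFF.out (k := F)
  let ψ : F0 →+* F := φ.comp (algebraMap F0 (RatFunc F0))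
  have h3 : (2 : F0) ≠ 0 := by
    intro h
    apply h2
    rw [← map_ofNat ψ 2, h, map_zero]
  let _ := Fintype.ofFinite F0
  have h4 := FiniteField.pow_card_sub_one_eq_one (2 : F0) h3
  have h5 : (2 : F) ^ (Fintype.card F0 - 1) = 1 := by
    rw [← map_ofNat ψ 2, ← map_pow, h4, map_one]
  have h6 : P.abv 2 ^ (Fintype.card F0 - 1) = 1 := by rw [← map_pow, h5, map_one]
  have h7 : Fintype.card F0 - 1 ≠ 0 := by
    have := Fintype.one_lt_card (α := F0)
    omega
  exact (pow_eq_one_iff_of_nonneg (P.abv.nonneg _) h7).mp h6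

/-- Elements close to one are squares in the completion. -/
theorem exists_sqrt (h2 : (2 : F) ≠ 0) (P : Place F) {x : F} (hx : P.abv (x - 1) < 1) :
    ∃ β : P.comp, β ^ 2 = algebraMap F P.comp x := by
  have hx1 : ‖(1 : P.comp) - algebraMap F P.comp x‖ < 1 := by
    rw [← map_one (algebraMap F P.comp), ← map_sub, norm_alg, ← neg_sub, P.abv.map_neg]
    exact hx
  have hn2 : ‖(2 : P.comp)‖ = 1 := by
    rw [← map_ofNat (algebraMap F P.comp) 2, norm_alg, abv_two h2]
  let a0 : H63.OK P.comp := ⟨1 - algebraMap F P.comp x, hx1.le⟩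
  obtain ⟨z, -, hz⟩ := H63.hensel (K := P.comp) (X ^ 2 + C 2 * X + C a0) (by
    have e : (X ^ 2 + C 2 * X + C a0 : (H63.OK P.comp)[X]).coeff 0 = a0 := by simp
    rw [e]
    exact hx1) (by
    have e : (X ^ 2 + C 2 * X + C a0 : (H63.OK P.comp)[X]).coeff 1 = 2 := by
      simp [coeff_X, coeff_C, coeff_X_pow]
    rw [e]
    exact hn2)
  refine ⟨1 + z, ?_⟩
  have h3 := congrArg (fun y : H63.OK P.comp => (y : P.comp)) hz
  simp only [eval_add, eval_pow, eval_X, eval_mul, eval_C] at h3
  have h4 : ((z : P.comp)) ^ 2 + 2 * z + (1 - algebraMap F P.comp x) = 0 := h3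
  linear_combination h4

end comp

section hasse

variable {F : Type} [Field F] [GFF F] {d b : F}

/-- The local condition at a place. -/
def LN (d b : F) (P : Place F) : Prop :=
  (∃ α : P.comp, α ^ 2 = algebraMap F P.comp d) ∨ ∃ b' p q : F, b' ≠ 0 ∧
    b' = b * (p ^ 2 - d * q ^ 2) ∧ ((P.abv d = 1 ∧ P.abv b' = 1) ∨ P.abv (b' - 1) < 1)

/-- The Hasse norm theorem. -/
theorem hasse_quad (h2 : (2 : F) ≠ 0) (hd0 : d ≠ 0) (hd : ¬ IsSquare d)
    (h : ∀ P : Place F, LN d b P) : ∃ p q : F, b = p ^ 2 - d * q ^ 2 := by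
  haveI : Fact (∀ r : F, r ^ 2 ≠ d + 0 * r) := ⟨fun r hr => hd ⟨r, by
    rw [zero_mul, add_zero, sq] at hr; exact hr.symm⟩⟩
  haveI := sep_quad h2 hd0
  have hE : finrank F (QE d) = 2 := QuadraticAlgebra.finrank_eq_two _ _
  haveI : FiniteDimensional F (QE d) := Module.finite_of_finrank_pos (by rw [hE]; norm_num)
  have hf : (X ^ 2 - C d : F[X]).Monic := monic_X_pow_sub_C d two_ne_zero
  have hdeg : (X ^ 2 - C d : F[X]).natDegree = 2 := natDegree_X_pow_sub_C
  have hθ : aeval (om d) (X ^ 2 - C d : F[X]) = 0 := by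
    rw [map_sub, map_pow, aeval_X, aeval_C, sq, om_sq, sub_self]
  obtain ⟨pb, hpb, hmp⟩ := H63.exists_pb Nat.prime_two hE hf hdeg hθ om_ne
  obtain ⟨e, he⟩ := Hey.hasse_norm Nat.prime_two hE b fun P => by
    rcases h P with ⟨α, hα⟩ | ⟨b', p, q, hb', hbb, h3⟩
    · exact H63.loc_root pb (α := α) (by rw [hmp, map_sub, map_pow, aeval_X, aeval_C, hα, sub_self]) b
    · have hν : p ^ 2 - d * q ^ 2 ≠ 0 := by
        intro h0
        rw [h0, mul_zero] at hbb
        exact hb' hbb
      have h4 : H63.LocN (QE d) (p ^ 2 - d * q ^ 2) P := by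
        have := H63.LocN.of_norm (k := F) (⟨p, q⟩ : QE d) P
        rwa [norm_quad] at this
      have h5 : H63.LocN (QE d) b' P := by
        rcases h3 with ⟨hd1, hb1⟩ | h6
        · obtain ⟨G, hGm, -, hG⟩ := H63.exists_lift P hf (by
            intro i
            rw [coeff_sub, coeff_X_pow, coeff_C, sub_eq_add_neg]
            refine (P.nonarch _ _).trans (max_le ?_ ?_)
            · split_ifs
              · rw [map_one]
              · rw [map_zero]; exact zero_le_one
            · rw [P.abv.map_neg]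
              split_ifs
              · exact hd1.le
              · rw [map_zero]; exact zero_le_one)
          refine H63.loc_unram pb hGm (hmp.trans hG) (H63.sep_of_discr (by rw [hdeg]; norm_num)
            ?_ hGm hG) one_ne_zero ?_
          · rw [discr_of_degree_eq_two (by rw [degree_X_pow_sub_C (by norm_num)]; rfl)]
            simp only [coeff_sub, coeff_X_pow, coeff_C]
            norm_num
            rw [show (4 : F) = 2 * 2 by norm_num, map_mul, abv_two h2, hd1]
            norm_num
          · rw [hb1, map_one, one_pow]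
        · obtain ⟨β, hβ⟩ := exists_sqrt h2 P h6
          rw [H63.locN_iff, ← hβ, ← hE]
          exact H63.IsN.of_pow β
      have h7 := h5.div h4
      rwa [hbb, mul_div_cancel_right₀ _ hν] at h7
  refine ⟨e.re, e.im, ?_⟩
  rw [← he, norm_quad]

end hasse

end Vale.Agent.P011.H929.FF
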