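import Vale.Agent.P011.H929.FFb
import Vale.Agent.P011.H929.FFq

/-!
Two unitary elements which are conjugate in the division algebra, and unitarily conjugate up to a
small error at all places, are unitarily conjugate: degree a prime.
-/

open Module

set_option linter.unusedSectionVars false

namespace Vale.Agent.P011.H929.FF

open Vale.Agent.P011.H305 Vale.Agent.P011.H738 Vale.Agent.P011.H271 Vale.Agent.P011.Hey
  Vale.Agent.P011.H182

variable {k K D : Type} [Field k] [Field K] [StarRing K]
    [DivisionRing D] [StarRing D] [Algebra k K] [Algebra k D] [Algebra K D] [IsScalarTower k K D]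
    {d : kˣ} {s : K}

/-- There is an integral intertwiner of unit norm at `v`: the element `y` is the adjoint of `g`
up to a unit. -/
def GoodInt {N : ℕ} (B : Basis (Fin N) k D) (v : Place k) (w w' : D) : Prop :=
  ∃ (g y : D) (c : k), w' * g = g * w ∧ Ig B v.abv g ∧ Ig B v.abv y ∧ y * g = algebraMap k D c ∧
    v.abv c = 1

/-- There is an almost unitary intertwiner at `v`. -/
def NearU {N : ℕ} (B : Basis (Fin N) k D) (ε : Place k → ℝ) (v : Place k) (w w' : D) : Prop :=
  ∃ g : D, w' * g = g * w ∧ na B v.abv (star g * g - 1) < ε v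

theorem inter_comm {w w' g : D} (hw : w * star w = 1) (hw' : w' * star w' = 1)
    (hg : w' * g = g * w) : (star g * g) * w = w * (star g * g) := by
  have h1 : star g * star w' = star w * star g := by
    rw [← star_mul, hg, star_mul]
  have h2 : w * star g = star g * w' := by
    have hww' : star w' * w' = 1 := by
      have h3 := mul_eq_one_comm.mp hw'
      exact h3
    calc w * star g = w * (star g * (star w' * w')) := by rw [hww', mul_one]
      _ = w * (star g * star w') * w' := by simp only [mul_assoc]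
      _ = w * star w * (star g * w') := by rw [h1]; simp only [mul_assoc]
      _ = star g * w' := by rw [hw, one_mul]
  rw [mul_assoc, ← hg, ← mul_assoc, ← h2, mul_assoc]

section field

variable {F : Type} [Field F] [Algebra k F] (i : F →ₐ[k] D)

theorem exists_norm (hS : SetF k K D d s) (hst : ∀ x, star (i x) = i x)
    {w w' : D} (hw : w * star w = 1) (hw' : w' * star w' = 1)
    (hF : ∀ y, y * w = w * y → ∃ a b, y = i a + i b * algebraMap K D s)
    {g : D} (hg : w' * g = g * w) : ∃ x : F, i x = star g * g := by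
  have h2D := two_D hS
  obtain ⟨a, b, hab⟩ := hF _ (inter_comm hw hw' hg)
  have h1 : star (star g * g) = star g * g := by rw [star_mul, star_star]
  rw [hab, star_add, star_mul, hst, hst, star_delta hS, neg_mul, delta_comm] at h1
  have h2 : (2 : D) * (i b * algebraMap K D s) = 0 := by
    have h3 := add_left_cancel h1
    rw [two_mul]
    nth_rw 1 [← h3]
    exact neg_add_cancel _
  have h4 : i b * algebraMap K D s = 0 := (mul_eq_zero.mp h2).resolve_left h2D
  exact ⟨a, by rw [hab, h4, add_zero]⟩

theorem star_mul_self' (hS : SetF k K D d s) (hst : ∀ x, star (i x) = i x) (p q : F) :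
    star (i p + i q * algebraMap K D s) * (i p + i q * algebraMap K D s) =
      i (p ^ 2 - algebraMap k F d * q ^ 2) := by
  have hdc : ∀ x : D, algebraMap K D s * x = x * algebraMap K D s := delta_comm
  have hd2 := delta_sq hS
  have hc : i p * i q = i q * i p := by rw [← map_mul, mul_comm, map_mul]
  rw [star_add, star_mul, hst, hst, star_delta hS, neg_mul, hdc, map_sub, map_mul, AlgHom.commutes,
    ← hd2, sq, sq, map_mul, map_mul]
  rw [add_mul, mul_add, mul_add, neg_mul, neg_mul]
  have e1 : i q * algebraMap K D s * (i q * algebraMap K D s) =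
      algebraMap K D s * algebraMap K D s * (i q * i q) := by
    rw [← hdc, mul_assoc, ← mul_assoc (i q), ← hdc (i q)]
    simp only [mul_assoc]
  have e2 : i q * algebraMap K D s * i p = i p * (i q * algebraMap K D s) := by
    rw [mul_assoc, hdc, ← mul_assoc, ← mul_assoc, hc]
  rw [e1, e2]
  abel

theorem same_class (hS : SetF k K D d s) (hst : ∀ x, star (i x) = i x)
    {w w' : D}
    (hF : ∀ y, y * w = w * y → ∃ a b, y = i a + i b * algebraMap K D s)
    {g g' : D} (hg0 : g ≠ 0) (hg : w' * g = g * w) (hg' : w' * g' = g' * w)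
    {x x' : F} (hx : i x = star g * g) (hx' : i x' = star g' * g') :
    ∃ p q : F, x' = x * (p ^ 2 - algebraMap k F d * q ^ 2) := by
  have h1 : (g⁻¹ * g') * w = w * (g⁻¹ * g') := by
    have h2 : g⁻¹ * w' = w * g⁻¹ := by
      have h3 : g⁻¹ * (w' * g) * g⁻¹ = g⁻¹ * (g * w) * g⁻¹ := by rw [hg]
      rw [← mul_assoc, mul_assoc, mul_inv_cancel₀ hg0, mul_one, ← mul_assoc, inv_mul_cancel₀ hg0,
        one_mul] at h3
      exact h3
    rw [mul_assoc, ← hg', ← mul_assoc, h2, mul_assoc]
  obtain ⟨p, q, hpq⟩ := hF _ h1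
  refine ⟨p, q, i.toRingHom.injective ?_⟩
  change i x' = i (x * (p ^ 2 - algebraMap k F d * q ^ 2))
  have e : g' = g * (i p + i q * algebraMap K D s) := by
    rw [← hpq, ← mul_assoc, mul_inv_cancel₀ hg0, one_mul]
  have hdc : ∀ x : D, algebraMap K D s * x = x * algebraMap K D s := delta_comm
  have hc : ∀ a b : F, i a * i b = i b * i a := fun a b => by rw [← map_mul, mul_comm, map_mul]
  have h2 : star (i p + i q * algebraMap K D s) * i x =
      i x * star (i p + i q * algebraMap K D s) := by
    rw [star_add, star_mul, hst, hst, star_delta hS, neg_mul, hdc, add_mul, mul_add, hc p x,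
      neg_mul, mul_neg, mul_assoc, hdc, ← mul_assoc, ← mul_assoc, hc q x]
  rw [map_mul, ← star_mul_self' i hS hst, hx', e, star_mul, ← mul_assoc (i x), ← h2, hx]
  simp only [mul_assoc]

end field

/-- The classes of conjugate unitary elements in prime degree are determined locally, uniformly
in the elements. -/
theorem class_global [GFF k] (hS : SetF k K D d s) {p : ℕ} (hp : p.Prime)
    (h : finrank K D = p ^ 2) {N : ℕ} (B : Basis (Fin N) k D) :
    ∃ ε : Place k → ℝ, (∀ q, 0 < ε q) ∧ ∀ w w' : D, w * star w = 1 → w' * star w' = 1 →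
      w ∉ Set.range (algebraMap K D) → (∃ g : D, g ≠ 0 ∧ w' * g = g * w) →
      (∀ v : Place k, (∃ α : v.comp, α ^ 2 = algebraMap k v.comp d) ∨
        (v.abv (d : k) = 1 ∧ Gd B v.abv ∧ GoodInt B v w w') ∨ NearU B ε v w w') →
      ∃ u : D, u * star u = 1 ∧ w' * u = u * w := by
  have hC := fun q : Place k => na_mul B q.abv
  choose C hC1 hCm using hC
  have hπ : ∀ v : Place k, ∃ π : k, π ≠ 0 ∧ v.abv π < 1 := by
    intro v
    obtain ⟨x, hx⟩ := v.normalized.2.1
    have hx1 : 1 < v.abv x := by
      rw [hx]; exact one_lt_qq' v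
    have hx0 : x ≠ 0 := by
      rintro rfl
      rw [map_zero] at hx1
      linarith
    refine ⟨x⁻¹, inv_ne_zero hx0, ?_⟩
    rw [map_inv₀]
    exact inv_lt_one_of_one_lt₀ hx1
  choose π hπ0 hπ1 using hπ
  refine ⟨fun q => q.abv (π q) / C q, ?_, ?_⟩
  · intro v
    exact div_pos (AbsoluteValue.pos _ (hπ0 v)) (lt_of_lt_of_le one_pos (hC1 _))
  intro w w' hw hw' hw1 ⟨g, hg0, hg⟩ hloc0
  have h2D := two_D hS
  obtain ⟨F, _, _, _, _, i, hst, hiw, hF⟩ := exists_field hS hp h hw hw1
  obtain ⟨x, hx⟩ := exists_norm i hS hst hw hw' hF hg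
  have hx0 : x ≠ 0 := by
    rintro rfl
    rw [map_zero] at hx
    exact mul_ne_zero (star_ne_zero.mpr hg0) hg0 hx.symm
  have h2F : (2 : F) ≠ 0 := by
    rw [← map_ofNat (algebraMap k F) 2]
    exact (map_ne_zero _).mpr hS.two_ne
  have hdF : algebraMap k F d ≠ 0 := (map_ne_zero _).mpr d.ne_zero
  have hns : ¬ IsSquare (algebraMap k F d) := by
    rintro ⟨f, hf⟩
    have h1 : (i f - algebraMap K D s) * (i f + algebraMap K D s) = 0 := by
      have hdc : ∀ x : D, algebraMap K D s * x = x * algebraMap K D s := delta_comm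
      have hd2 := delta_sq hS
      rw [sub_mul, mul_add, mul_add, ← map_mul, ← hf, AlgHom.commutes, hdc (i f), hd2]
      abel
    rcases mul_eq_zero.mp h1 with h2 | h2
    · have h3 := hst f
      rw [sub_eq_zero.mp h2, star_delta hS] at h3
      have h4 : (2 : D) * algebraMap K D s = 0 := by
        rw [two_mul]
        nth_rw 1 [← h3]
        exact neg_add_cancel _
      exact (mul_ne_zero h2D (delta_ne_zero hS)) h4
    · have h3 := hst f
      rw [eq_neg_of_add_eq_zero_left h2, star_neg, star_delta hS, neg_neg] at h3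
      have h4 : (2 : D) * algebraMap K D s = 0 := by
        rw [two_mul]
        nth_rw 1 [h3]
        exact neg_add_cancel _
      exact (mul_ne_zero h2D (delta_ne_zero hS)) h4
  have hloc : ∀ P : Place F, LN (algebraMap k F d) x P := by
    intro P
    obtain ⟨v, c, hc0, hc⟩ := H63.exists_below (k := k) P
    rcases hloc0 v with ⟨α, hα⟩ | ⟨hd1, hB, g', y, c', hg', hIg, hIy, hyg, hc'⟩ | ⟨g', hg', hna⟩
    · left
      obtain ⟨φ, hφ⟩ := H63.exists_compHom v P hc0 hc
      exact ⟨φ α, by rw [← map_pow, hα, hφ]⟩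
    · right
      obtain ⟨x', hx'⟩ := exists_norm i hS hst hw hw' hF hg'
      have hc0' : c' ≠ 0 := by
        rintro rfl
        rw [map_zero] at hc'
        exact zero_ne_one hc'
      have hcD : algebraMap k D c' ≠ 0 := (map_ne_zero _).mpr hc0'
      have hg0' : g' ≠ 0 := by
        rintro rfl
        rw [mul_zero] at hyg
        exact hcD hyg.symm
      have hx0' : x' ≠ 0 := by
        rintro rfl
        rw [map_zero] at hx'
        exact mul_ne_zero (star_ne_zero.mpr hg0') hg0' hx'.symm
      obtain ⟨a, b, hab⟩ := same_class i hS hst hF hg0 hg hg' hx hx'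
      refine ⟨x', a, b, hx0', hab, Or.inl ⟨by rw [hc, hd1, Real.one_rpow], ?_⟩⟩
      have hpow : ∀ z : F, Ig B v.abv (i z) → ∀ n : ℕ, Ig B v.abv (i (z ^ (n + 1))) := by
        intro z hz n
        induction n with
        | zero => rwa [zero_add, pow_one]
        | succ n ih => rw [pow_succ, map_mul]; exact hB.mul' ih hz
      have hIa : Ig B v.abv (i x') := by
        rw [hx']
        exact hB.mul' (hB.star (star_k hS) hIg) hIg
      have hIb : Ig B v.abv (i x'⁻¹) := by
        have e1 : i x'⁻¹ = (c'⁻¹ * c'⁻¹) • (y * star y) := by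
          have e2 : g'⁻¹ = c'⁻¹ • y := by
            symm
            apply eq_inv_of_mul_eq_one_left
            rw [smul_mul_assoc, hyg, Algebra.algebraMap_eq_smul_one, smul_smul,
              inv_mul_cancel₀ hc0', one_smul]
          rw [map_inv₀, hx', mul_inv_rev, ← star_inv₀, e2, star_k hS, smul_mul_smul_comm]
        rw [e1]
        refine Gd.smul ?_ (hB.mul' hIy (hB.star (star_k hS) hIy))
        rw [map_mul, map_inv₀, hc', inv_one, one_mul]
      have h5 := abv_le_one_of_pow B hc0 hc i (hpow _ hIa)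
      have h6 := abv_le_one_of_pow B hc0 hc i (hpow _ hIb)
      rw [map_inv₀, inv_le_one₀ (AbsoluteValue.pos _ hx0')] at h6
      exact le_antisymm h5 h6
    · right
      obtain ⟨x', hx'⟩ := exists_norm i hS hst hw hw' hF hg'
      have e1 : i (x' - 1) = star g' * g' - 1 := by rw [map_sub, map_one, hx']
      have h4 := abv_le_of_na B hc0 hc i (hC1 v) (hCm v) (c := π v) (hπ0 v) (x := x' - 1) (by
          rw [e1, mul_comm, ← le_div_iff₀ (lt_of_lt_of_le one_pos (hC1 _))]
          exact hna.le)
      have h5 : P.abv (x' - 1) < 1 := by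
        refine lt_of_le_of_lt h4 ?_
        rw [hc]
        exact Real.rpow_lt_one (AbsoluteValue.nonneg _ _) (hπ1 v) hc0
      have hx0' : x' ≠ 0 := by
        rintro rfl
        rw [zero_sub, AbsoluteValue.map_neg, map_one] at h5
        exact lt_irrefl _ h5
      obtain ⟨a, b, hab⟩ := same_class i hS hst hF hg0 hg hg' hx hx'
      exact ⟨x', a, b, hx0', hab, Or.inr h5⟩
  obtain ⟨a, b, hab'⟩ := hasse_quad h2F hdF hns hloc
  obtain ⟨e, he⟩ : ∃ e : D, e = i a + i b * algebraMap K D s := ⟨_, rfl⟩
  have h1 : star e * e = star g * g := by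
    rw [he, star_mul_self' i hS hst, ← hab', hx]
  have he0 : e ≠ 0 := by
    rintro rfl
    rw [mul_zero] at h1
    exact mul_ne_zero (star_ne_zero.mpr hg0) hg0 h1.symm
  have hew : e * w = w * e := by
    rw [he, add_mul, mul_add, hiw, mul_assoc, delta_comm, ← mul_assoc, hiw, mul_assoc]
  refine ⟨g * e⁻¹, ?_, ?_⟩
  · apply mul_eq_one_comm.mp
    rw [star_mul, star_inv₀]
    calc (star e)⁻¹ * star g * (g * e⁻¹) = (star e)⁻¹ * (star g * g) * e⁻¹ := by
          simp only [mul_assoc]
      _ = (star e)⁻¹ * star e * (e * e⁻¹) := by rw [← h1]; simp only [mul_assoc]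
      _ = 1 := by rw [inv_mul_cancel₀ (star_ne_zero.mpr he0), mul_inv_cancel₀ he0, one_mul]
  · have h2 : e⁻¹ * w = w * e⁻¹ := by
      have h3 : Commute e w := hew
      exact h3.inv_left₀.eq
    rw [← mul_assoc, hg, mul_assoc, mul_assoc, h2]

end Vale.Agent.P011.H929.FF
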