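import Vale.Agent.P011.H305.SetF
import Vale.Agent.P011.Hey.H63.PlaceRes
import Vale.Agent.P011.H929.DP

/-!
Commutants in division algebras of degree the square of a prime; the field of symmetric elements
commuting with a unitary element.
-/

open Module Polynomial

set_option linter.unusedSectionVars false

namespace Vale.Agent.P011.H929.FF

open Vale.Agent.P011.H305 Vale.Agent.P011.H738 Vale.Agent.P011.H271 Vale.Agent.P011.Hey

section setting

variable {k K D : Type} [Field k] [Field K] [StarRing K]
    [DivisionRing D] [StarRing D] [Algebra k K] [Algebra k D] [Algebra K D] [IsScalarTower k K D]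
    {d : kˣ} {s : K}

theorem star_alg (hS : SetF k K D d s) (c : K) :
    star (algebraMap K D c) = algebraMap K D (star c) := by
  rw [Algebra.algebraMap_eq_smul_one, hS.star_smul, star_one, ← Algebra.algebraMap_eq_smul_one]

theorem star_k (hS : SetF k K D d s) (c : k) (x : D) : star (c • x) = c • star x := by
  rw [← IsScalarTower.algebraMap_smul K c x, hS.star_smul,
    (hS.fix _).mpr ⟨c, rfl⟩, IsScalarTower.algebraMap_smul]

theorem delta_comm (x : D) : algebraMap K D s * x = x * algebraMap K D s := Algebra.commutes s x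

theorem delta_sq (hS : SetF k K D d s) :
    algebraMap K D s * algebraMap K D s = algebraMap k D d := by
  rw [← map_mul, ← sq, hS.sq, ← IsScalarTower.algebraMap_apply]

theorem star_delta (hS : SetF k K D d s) : star (algebraMap K D s) = -algebraMap K D s := by
  rw [star_alg hS, hS.star_s, map_neg]

theorem s_ne_zero (hS : SetF k K D d s) : s ≠ 0 := by
  rintro rfl
  have h := hS.sq
  rw [zero_pow two_ne_zero] at h
  exact d.ne_zero ((map_eq_zero (algebraMap k K)).mp h.symm)

theorem delta_ne_zero (hS : SetF k K D d s) : algebraMap K D s ≠ 0 :=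
  (_root_.map_ne_zero _).mpr (s_ne_zero hS)

theorem two_K (hS : SetF k K D d s) : (2 : K) ≠ 0 := by
  rw [← map_ofNat (algebraMap k K) 2]
  exact (_root_.map_ne_zero _).mpr hS.two_ne

theorem two_D (hS : SetF k K D d s) : (2 : D) ≠ 0 := by
  rw [← map_ofNat (algebraMap k D) 2]
  exact (_root_.map_ne_zero _).mpr hS.two_ne

theorem exists_ks (hS : SetF k K D d s) (c : K) :
    ∃ a b : k, c = algebraMap k K a + algebraMap k K b * s := by
  have h2K := two_K hS
  have hs := s_ne_zero hS
  obtain ⟨a, ha⟩ := (hS.fix ((c + star c) / 2)).mp (by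
    rw [star_div₀, star_add, star_star, add_comm, star_ofNat])
  obtain ⟨b, hb⟩ := (hS.fix ((c - star c) / (2 * s))).mp (by
    rw [star_div₀, star_sub, star_star, star_mul', star_ofNat, hS.star_s]
    field_simp
    ring)
  refine ⟨a, b, ?_⟩
  rw [ha, hb]
  field_simp
  ring

/-- The symmetric generator of the commutant of a unitary element. -/
theorem exists_theta (hS : SetF k K D d s) {w : D} (hw : w * star w = 1)
    (hw1 : w ∉ Set.range (algebraMap K D)) :
    ∃ t : D, star t = t ∧ t ∉ Set.range (algebraMap K D) ∧ t * w = w * t ∧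
      w = (t + algebraMap K D s) * (t - algebraMap K D s)⁻¹ := by
  have h2D := two_D hS
  have hδ := delta_ne_zero hS
  obtain ⟨δ, hδe⟩ : ∃ δ : D, δ = algebraMap K D s := ⟨_, rfl⟩
  rw [← hδe] at hδ
  have hδc : ∀ x : D, δ * x = x * δ := fun x => by rw [hδe]; exact delta_comm x
  have hδs : star δ = -δ := by rw [hδe]; exact star_delta hS
  have h1 : w - 1 ≠ 0 := by
    intro h
    exact hw1 ⟨1, by rw [map_one]; exact (sub_eq_zero.mp h).symm⟩
  have hw0 : w ≠ 0 := by
    rintro rfl
    rw [zero_mul] at hw
    exact zero_ne_one hw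
  have hws : star w = w⁻¹ := (eq_inv_of_mul_eq_one_right hw)
  have hcw : (w - 1)⁻¹ * w = w * (w - 1)⁻¹ := by
    have : Commute (w - 1) w := by
      change (w - 1) * w = w * (w - 1)
      noncomm_ring
    exact this.inv_left₀.eq
  obtain ⟨t, htd⟩ : ∃ t : D, t = δ * ((w + 1) * (w - 1)⁻¹) := ⟨_, rfl⟩
  have ht : t * (w - 1) = δ * (w + 1) := by
    rw [htd, mul_assoc, mul_assoc, inv_mul_cancel₀ h1, mul_one]
  have htw : t * w = w * t := by
    rw [htd]
    rw [← mul_assoc w δ, ← hδc w, mul_assoc, mul_assoc, hcw, mul_assoc δ w]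
    congr 1
    rw [← mul_assoc, ← mul_assoc]
    congr 1
    noncomm_ring
  have h2 : (t - δ) * w = t + δ := by
    have h3 : t * w - t = δ * w + δ := by
      have := ht
      rw [mul_sub, mul_one, mul_add, mul_one] at this
      exact this
    rw [sub_mul]
    have : t * w = δ * w + δ + t := by rw [← h3]; abel
    rw [this]
    abel
  have h4 : t - δ ≠ 0 := by
    intro h
    rw [h, zero_mul] at h2
    have h5 : t = δ := sub_eq_zero.mp h
    rw [h5] at h2
    have h6 : (2 : D) * δ = 0 := by rw [two_mul]; exact h2.symm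
    exact (mul_ne_zero h2D hδ) h6
  have hst : star t = t := by
    have h5 : star (w - 1) ≠ 0 := star_ne_zero.mpr h1
    have h6 : star t * star (w - 1) = t * star (w - 1) := by
      have h7 : star (w - 1) * star t = -δ * star (w + 1) := by
        rw [← star_mul, ht, star_mul, hδs, mul_neg, ← hδc, neg_mul]
      have h8 : star t * star (w - 1) = star (w - 1) * star t := by
        have h9 : t * (w - 1) = (w - 1) * t := by rw [mul_sub, sub_mul, htw, one_mul, mul_one]
        rw [← star_mul, ← star_mul, h9]
      rw [h8, h7, star_add, star_sub, star_one, hws, mul_sub, mul_one]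
      have h9 : t * w⁻¹ - t = -(δ * w⁻¹) - δ := by
        have h10 : (t * w⁻¹ - t) * w = (-(δ * w⁻¹) - δ) * w := by
          rw [sub_mul, sub_mul, neg_mul, mul_assoc, mul_assoc, inv_mul_cancel₀ hw0, mul_one,
            mul_one]
          rw [sub_mul] at h2
          have : t * w = t + δ + δ * w := by rw [← h2]; abel
          rw [this]
          abel
        exact mul_right_cancel₀ hw0 h10
      rw [h9, neg_mul, mul_add, mul_one]
      abel
    exact mul_right_cancel₀ h5 h6
  refine ⟨t, hst, ?_, htw, ?_⟩
  · rintro ⟨c, hc⟩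
    apply hw1
    have h5 : w = (t - δ)⁻¹ * (t + δ) := by
      rw [← h2, ← mul_assoc, inv_mul_cancel₀ h4, one_mul]
    refine ⟨(c - s)⁻¹ * (c + s), ?_⟩
    rw [map_mul, map_inv₀, map_sub, map_add, hc, ← hδe, ← h5]
  · rw [← hδe]
    have hc : Commute (t - δ) (t + δ) := by
      change (t - δ) * (t + δ) = (t + δ) * (t - δ)
      have := hδc t
      rw [sub_mul, mul_add, mul_add, add_mul, mul_sub, mul_sub, this]
      abel
    rw [← hc.inv_left₀.eq, ← h2, ← mul_assoc, inv_mul_cancel₀ h4, one_mul]

/-- The number field of the symmetric elements commuting with a unitary element. -/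
theorem exists_field [GFF k] (hS : SetF k K D d s) {p : ℕ} (hp : p.Prime)
    (h : finrank K D = p ^ 2) {w : D} (hw : w * star w = 1)
    (hw1 : w ∉ Set.range (algebraMap K D)) :
    ∃ (F : Type) (_ : Field F) (_ : GFF F) (_ : Algebra k F) (_ : Algebra.IsAlgebraic k F)
      (i : F →ₐ[k] D),
      (∀ x, star (i x) = i x) ∧ (∀ x, i x * w = w * i x) ∧
      ∀ y, y * w = w * y → ∃ a b, y = i a + i b * algebraMap K D s := by
  have _ := hS.fin
  have _ := hS.cen
  have _ : FiniteDimensional k K := FiniteDimensional.of_finrank_pos (by rw [hS.rank]; norm_num)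
  have _ : FiniteDimensional k D := FiniteDimensional.trans k K D
  obtain ⟨t, hst, ht1, htw, -⟩ := exists_theta hS hw hw1
  have hint : IsIntegral k t := IsIntegral.of_finite k t
  have _ : Fact (Irreducible (minpoly k t)) := ⟨minpoly.irreducible hint⟩
  have _ : Module.Finite k (AdjoinRoot (minpoly k t)) :=
    (AdjoinRoot.powerBasis (minpoly.ne_zero hint)).finite
  have _ : GFF (AdjoinRoot (minpoly k t)) := H63.gff_of_finite (k := k)
  let i : AdjoinRoot (minpoly k t) →ₐ[k] D :=
    Ideal.Quotient.liftₐ (Ideal.span {minpoly k t}) (Polynomial.aeval t) (by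
      intro a ha
      obtain ⟨b, rfl⟩ := Ideal.mem_span_singleton'.mp ha
      rw [map_mul, minpoly.aeval, mul_zero])
  have hi : ∀ P : k[X], i (AdjoinRoot.mk (minpoly k t) P) = aeval t P := fun P => rfl
  refine ⟨AdjoinRoot (minpoly k t), inferInstance, inferInstance, inferInstance,
    Algebra.IsAlgebraic.of_finite k _, i, ?_, ?_, ?_⟩
  · intro x
    obtain ⟨P, rfl⟩ := AdjoinRoot.mk_surjective x
    rw [hi, Polynomial.aeval_eq_sum_range, star_sum]
    exact Finset.sum_congr rfl fun j _ => by rw [star_k hS, star_pow, hst]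
  · intro x
    obtain ⟨P, rfl⟩ := AdjoinRoot.mk_surjective x
    rw [hi]
    have hc : Commute t w := htw
    rw [Polynomial.aeval_eq_sum_range, Finset.sum_mul, Finset.mul_sum]
    refine Finset.sum_congr rfl fun j _ => ?_
    rw [smul_mul_assoc, mul_smul_comm, (hc.pow_left j).eq]
  · intro y hy
    have h1 := centralizer_eq_adjoin hp h hw1 ht1 htw hy
    clear hy
    have hdc : ∀ x : D, algebraMap K D s * x = x * algebraMap K D s := delta_comm
    have hd2 := delta_sq hS
    induction h1 using Algebra.adjoin_induction with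
    | mem x hx =>
      rw [Set.mem_singleton_iff] at hx
      subst hx
      exact ⟨AdjoinRoot.mk _ X, 0, by rw [hi, aeval_X, map_zero, zero_mul, add_zero]⟩
    | algebraMap c =>
      obtain ⟨a, b, rfl⟩ := exists_ks hS c
      refine ⟨algebraMap k _ a, algebraMap k _ b, ?_⟩
      rw [AlgHom.commutes, AlgHom.commutes, map_add, map_mul, ← IsScalarTower.algebraMap_apply,
        ← IsScalarTower.algebraMap_apply]
    | add x y _ _ hx hy =>
      obtain ⟨a, b, rfl⟩ := hx
      obtain ⟨a', b', rfl⟩ := hy
      exact ⟨a + a', b + b', by rw [map_add, map_add, add_mul]; abel⟩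
    | mul x y _ _ hx hy =>
      obtain ⟨a, b, rfl⟩ := hx
      obtain ⟨a', b', rfl⟩ := hy
      refine ⟨a * a' + b * b' * algebraMap k _ d, a * b' + b * a', ?_⟩
      rw [map_add, map_add, map_mul, map_mul, map_mul, map_mul, map_mul, AlgHom.commutes, ← hd2]
      rw [add_mul, mul_add, mul_add, add_mul (i a * i b')]
      have e1 : i b * algebraMap K D s * (i b' * algebraMap K D s) =
          i b * i b' * (algebraMap K D s * algebraMap K D s) := by
        rw [mul_assoc, ← mul_assoc (algebraMap K D s) (i b'), hdc (i b')]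
        simp only [mul_assoc]
      have e2 : i b * algebraMap K D s * i a' = i b * i a' * algebraMap K D s := by
        rw [mul_assoc, hdc, ← mul_assoc]
      rw [e1, e2, ← mul_assoc (i a)]
      abel

end setting

end Vale.Agent.P011.H929.FF
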