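import Vale.Agent.P011.H182.Nma
import Vale.Agent.P011.H929.FFa

/-!
Spectral bounds for a global function field embedded in a finite dimensional division algebra.
-/

open Module

set_option linter.unusedSectionVars false
set_option linter.unusedVariables false

namespace Vale.Agent.P011.H929.FF

open Vale.Agent.P011.H182 Vale.Agent.P011.H738

section bound

variable {k D F : Type} [Field k] [DivisionRing D] [Algebra k D]
  [Field F] [Algebra k F] {N : ℕ} (B : Basis (Fin N) k D)

/-- A left inverse of an embedding expresses elements of the field by coordinates in the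
algebra. -/
theorem exists_coord (i : F →ₐ[k] D) :
    ∃ c : Fin N → F, ∀ x : F, x = ∑ j, algebraMap k F (B.repr (i x) j) * c j := by
  obtain ⟨r, hr⟩ := i.toLinearMap.exists_leftInverse_of_injective
    (LinearMap.ker_eq_bot.mpr i.toRingHom.injective)
  refine ⟨fun j => r (B j), fun x => ?_⟩
  have h1 : r (i x) = x := LinearMap.congr_fun hr x
  conv_lhs => rw [← h1, ← B.sum_repr (i x), map_sum]
  refine Finset.sum_congr rfl fun j _ => ?_
  rw [map_smul, Algebra.smul_def]

variable {v : AbsoluteValue k ℝ} {u : AbsoluteValue F ℝ} {s : ℝ} (hs : 0 < s)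
  (h : ∀ x : k, u (algebraMap k F x) = v x ^ s)

include hs h

/-- Powers bounded below give an integral element above. -/
theorem abv_le_one_of_pow (i : F →ₐ[k] D) {x : F}
    (hx : ∀ n : ℕ, Ig B v (i (x ^ (n + 1)))) : u x ≤ 1 := by
  obtain ⟨c, hc⟩ := exists_coord B i
  have h1 : ∀ n : ℕ, u x ^ (n + 1) ≤ ∑ j, u (c j) := by
    intro n
    rw [← map_pow, hc (x ^ (n + 1))]
    refine (AbsoluteValue.sum_le _ _ _).trans (Finset.sum_le_sum fun j _ => ?_)
    rw [map_mul]
    refine mul_le_of_le_one_left (AbsoluteValue.nonneg _ _) ?_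
    rw [h]
    exact Real.rpow_le_one (AbsoluteValue.nonneg _ _) (hx n j) hs.le
  by_contra hcon
  push Not at hcon
  obtain ⟨n, hn⟩ := pow_unbounded_of_one_lt (∑ j, u (c j)) hcon
  have h2 : u x ^ n ≤ u x ^ (n + 1) := pow_le_pow_right₀ hcon.le (Nat.le_succ n)
  linarith [h1 n]

/-- Sizes above are bounded by sizes below. -/
theorem abv_le_of_na (i : F →ₐ[k] D) {C : ℝ} (hC : 1 ≤ C)
    (hm : ∀ x y, na B v (x * y) ≤ C * na B v x * na B v y)
    {c : k} (hc : c ≠ 0) {x : F} (hx : C * na B v (i x) ≤ v c) :
    u x ≤ u (algebraMap k F c) := by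
  have hc' : algebraMap k F c ≠ 0 := (map_ne_zero _).mpr hc
  have hpos : 0 < v c := AbsoluteValue.pos _ hc
  have e : i (x / algebraMap k F c) = c⁻¹ • i x := by
    rw [div_eq_inv_mul, ← map_inv₀, ← Algebra.smul_def, map_smul]
  have h1 : C * na B v (i (x / algebraMap k F c)) ≤ 1 := by
    rw [e, na_smul, map_inv₀, mul_left_comm, ← div_eq_inv_mul]
    exact (div_le_one hpos).mpr hx
  have h2 : ∀ n : ℕ, C * na B v (i ((x / algebraMap k F c) ^ (n + 1))) ≤ 1 := by
    intro n
    induction n with
    | zero => simpa using h1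
    | succ n ih =>
      rw [pow_succ, map_mul]
      calc _ ≤ C * (C * na B v (i ((x / algebraMap k F c) ^ (n + 1))) *
            na B v (i (x / algebraMap k F c))) :=
            mul_le_mul_of_nonneg_left (hm _ _) (by linarith)
        _ = (C * na B v (i ((x / algebraMap k F c) ^ (n + 1)))) *
            (C * na B v (i (x / algebraMap k F c))) := by ring
        _ ≤ 1 * 1 := mul_le_mul ih h1 (mul_nonneg (by linarith) (na_nonneg _ _ _)) zero_le_one
        _ = 1 := one_mul 1
  have h3 : u (x / algebraMap k F c) ≤ 1 := by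
    refine abv_le_one_of_pow B hs h i fun n j => ?_
    refine (coord_le_na B _ _ _).trans ?_
    have h4 := h2 n
    have h5 := na_nonneg B v (i ((x / algebraMap k F c) ^ (n + 1)))
    nlinarith
  rwa [map_div₀, div_le_one (AbsoluteValue.pos _ hc')] at h3

end bound

end Vale.Agent.P011.H929.FF
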