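import Vale.Agent.P011.H373.S1

/-!
Local norms from a cubic field at a place where the reduction of the polynomial is not a cube.
-/

open NumberField IsDedekindDomain Polynomial Module

namespace Vale.Agent.P011.H929

open H373

/-- Units are local norms at a place `v` prime to `6` (only `3` is used) where the polynomial
`X ^ 3 - e1 X ^ 2 + e2 X - e3` is integral and not a cube modulo `v`. -/
theorem loc_of_not_cube {k E : Type} [Field k] [NumberField k] [Field E] [NumberField E]
    [Algebra k E] (hE : finrank k E = 3) (v : HeightOneSpectrum (𝓞 k))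
    (h6 : v.valuation k (6 : k) = 1) {e1 e2 e3 : k} (h1 : v.valuation k e1 ≤ 1)
    (h2 : v.valuation k e2 ≤ 1) (h3 : v.valuation k e3 ≤ 1)
    (hnc : ¬ (v.valuation k (e1 ^ 2 - 3 * e2) < 1 ∧ v.valuation k (e1 * e2 - 9 * e3) < 1))
    {θ : E} (hθ : θ ^ 3 - algebraMap k E e1 * θ ^ 2 + algebraMap k E e2 * θ -
      algebraMap k E e3 = 0) (hgen : ∀ c : k, algebraMap k E c ≠ θ)
    {b : k} (hb : v.valuation k b = 1) :
    ∃ e : E, v.valuation k (b / Algebra.norm k e - 1) < v.valuation k ((3 : k) ^ 2) := by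
  have hi : ∀ m : ℕ, v.valuation k (m : k) ≤ 1 := by
    intro m
    have := v.valuation_le_one (K := k) (m : 𝓞 k)
    simpa using this
  have h30 : v.valuation k (3 : k) = 1 := by
    have e : (6 : k) = ((2 : ℕ) : k) * ((3 : ℕ) : k) := by norm_num
    rw [e, map_mul] at h6
    have h4 : v.valuation k ((3 : ℕ) : k) = 1 := by
      refine le_antisymm (hi 3) ?_
      rw [← h6]
      exact mul_le_of_le_one_left' (hi 2)
    simpa using h4
  have hcl : ∀ {x y : k}, v.valuation k x < 1 → v.valuation k y ≤ 1 →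
      v.valuation k (x * y) < 1 := by
    intro x y hx hy
    rw [map_mul]
    exact (mul_le_of_le_one_right' hy).trans_lt hx
  have hadd : ∀ {x y : k}, v.valuation k x < 1 → v.valuation k y < 1 →
      v.valuation k (x + y) < 1 := fun hx hy => (Valuation.map_add _ _ _).trans_lt (max_lt hx hy)
  have hneg : ∀ {x : k}, v.valuation k x < 1 → v.valuation k (-x) < 1 := by
    intro x hx
    rwa [Valuation.map_neg]
  have h := loc_notcube (K := k) (E := E) hE (θ := θ) (t := e1) (s := e2) (n := e3)
    (by rw [cp_aeval]; exact hθ) hgen v h30 h1 h2 h3 ?_ (b := b) (c₀ := 1)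
    (by rw [one_pow, div_one]; exact hb)
  · obtain ⟨e, he⟩ := h
    exact ⟨e, by exact_mod_cast he⟩
  · rintro ⟨c, hc, ht, hs, hn⟩
    have h3i : v.valuation k (3 : k) ≤ 1 := h30.le
    have h9i : v.valuation k (9 : k) ≤ 1 := by simpa using hi 9
    have hsum : v.valuation k (e1 + 3 * c) ≤ 1 := by
      refine (Valuation.map_add _ _ _).trans (max_le h1 ?_)
      rw [map_mul]
      exact mul_le_one' h3i hc
    apply hnc
    constructor
    · have e : e1 ^ 2 - 3 * e2 = (e1 - 3 * c) * (e1 + 3 * c) + -((e2 - 3 * c ^ 2) * 3) := by ring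
      rw [e]
      exact hadd (hcl ht hsum) (hneg (hcl hs h3i))
    · have e : e1 * e2 - 9 * e3 = (e1 - 3 * c) * e2 + (e2 - 3 * c ^ 2) * (3 * c) +
          -((e3 - c ^ 3) * 9) := by ring
      rw [e]
      refine hadd (hadd (hcl ht h2) (hcl hs ?_)) (hneg (hcl hn h9i))
      rw [map_mul]
      exact mul_le_one' h3i hc

end Vale.Agent.P011.H929
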