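import Vale.Agent.P011.H929.FFc
import Vale.Agent.P011.H929.DP
import Vale.Agent.P011.H929.Cts
import Vale.Agent.P011.H929.LU

/-!
The standard intertwiner is close to a given one: function fields.
-/

open Module

set_option linter.unusedSectionVars false
set_option linter.unusedVariables false

namespace Vale.Agent.P011.H929.FF

open Vale.Agent.P011.H305 Vale.Agent.P011.H738 Vale.Agent.P011.H271 Vale.Agent.P011.Hey
  Vale.Agent.P011.H182 Vale.Agent.P011.H775 Vale.Agent.P011.H948

section near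

variable {k K D : Type} [Field k] [Field K] [StarRing K]
    [DivisionRing D] [StarRing D] [Algebra k K] [Algebra k D] [Algebra K D] [IsScalarTower k K D]
    {d : kˣ} {s : K} (C : Cub K D)

/-- The reduced trace as an endomorphism. -/
noncomputable def Tk (k : Type) [Field k] [Algebra k K] [Algebra k D] [IsScalarTower k K D]
    (C : Cub K D) : D →ₗ[k] D :=
  ((LinearMap.toSpanSingleton K D 1) ∘ₗ C.T).restrictScalars k

theorem Tk_apply (x : D) : Tk k C x = C.T x • (1 : D) := rfl

theorem two_S (x : D) : 2 * C.S x = C.T x * C.T x - C.T (x * x) := by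
  have h1 := congrArg C.T (C.adj_eq x)
  rw [map_add, map_sub, map_smul, map_smul, C.T_one, smul_eq_mul, smul_eq_mul] at h1
  have h2 : C.T (C.adj x) = C.S x := rfl
  rw [h2] at h1
  linear_combination -h1

theorem adj_formula (hS : SetF k K D d s) (x : D) : C.adj x =
    x * x - Tk k C x * x + (2⁻¹ : k) • (Tk k C x * Tk k C x - Tk k C (x * x)) := by
  have h2K := two_K hS
  rw [C.adj_eq, Tk_apply, Tk_apply, smul_one_mul, smul_mul_smul_comm, one_mul, ← sub_smul,
    ← two_S, ← algebraMap_smul K (2⁻¹ : k), smul_smul, map_inv₀, map_ofNat, inv_mul_cancel_left₀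
      h2K]

theorem cts_adj (hS : SetF k K D d s) {N : ℕ} {B : Basis (Fin N) k D} {a : AbsoluteValue k ℝ}
    {X0 w0 : D} {f : D → D → D} (hf : Cts B a X0 w0 f) :
    Cts B a X0 w0 fun X w => C.adj (f X w) := by
  have h1 := (hf.mul hf).sub ((hf.lin (Tk k C)).mul hf)
  have h2 := ((hf.lin (Tk k C)).mul (hf.lin (Tk k C))).sub ((hf.mul hf).lin (Tk k C))
  have h3 := h1.add (h2.lin ((2⁻¹ : k) • LinearMap.id))
  have e : (fun X w => C.adj (f X w)) = fun X w => f X w * f X w - Tk k C (f X w) * f X w +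
      ((2⁻¹ : k) • LinearMap.id (R := k) (M := D)) (Tk k C (f X w) * Tk k C (f X w) -
        Tk k C (f X w * f X w)) := by
    funext X w
    rw [adj_formula C hS]
    rfl
  rw [e]
  exact h3

theorem cts_hr (hS : SetF k K D d s) {N : ℕ} {B : Basis (Fin N) k D} {a : AbsoluteValue k ℝ}
    {X0 w0 : D} (r : D) : Cts B a X0 w0 fun X w => hr C X w r := by
  have h1 := ((Cts.fst (B := B) (a := a) (X0 := X0) (w0 := w0)).mul Cts.fst).mul (Cts.const r)
  have h2 := ((Cts.fst (B := B) (a := a) (X0 := X0) (w0 := w0)).mul (Cts.const r)).mul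
    (Cts.snd.sub (Cts.snd.lin (Tk k C)))
  have h3 := (Cts.const (B := B) (a := a) (X0 := X0) (w0 := w0) r).mul (cts_adj C hS Cts.snd)
  exact (h1.add h2).add h3

/-- The standard intertwiner of a pair near `(X1, w1)` is near a given intertwiner of
`(X1, w1)`. -/
theorem near_of_pair (hS : SetF k K D d s) {N : ℕ}
    (B : Basis (Fin N) k D) (a : AbsoluteValue k ℝ) {w1 X1 g1 : D}
    (h0 : dP C w1 ≠ 0) (hX1 : X1 * g1 = g1 * w1) {η : ℝ} (hη : 0 < η) :
    ∃ δ : ℝ, 0 < δ ∧ ∀ X w, na B a (X - X1) < δ → na B a (w - w1) < δ →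
      C.T X = C.T w → C.S X = C.S w → C.N X = C.N w →
      X * H948.hr C X w (g1 * (dP C w1)⁻¹) = H948.hr C X w (g1 * (dP C w1)⁻¹) * w ∧
      na B a (H948.hr C X w (g1 * (dP C w1)⁻¹) - g1) < η ∧
      na B a (star (H948.hr C X w (g1 * (dP C w1)⁻¹)) * H948.hr C X w (g1 * (dP C w1)⁻¹) -
        star g1 * g1) < η := by
  have hm : (dP C w1)⁻¹ * w1 = w1 * (dP C w1)⁻¹ := by
    have h1 : Commute (dP C w1) w1 := dP_comm C w1
    exact h1.inv_left₀.eq
  have e1 : H948.hr C X1 w1 (g1 * (dP C w1)⁻¹) = g1 := by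
    rw [hr_eq C hX1 hm, mul_inv_cancel₀ h0, mul_one]
  let σ : D →ₗ[k] D := { toFun := star, map_add' := star_add, map_smul' := star_k hS }
  have h1 := cts_hr C hS (B := B) (a := a) (X0 := X1) (w0 := w1) (g1 * (dP C w1)⁻¹)
  have h2 := (h1.lin σ).mul h1
  obtain ⟨δ1, hδ1, h1⟩ := h1 η hη
  obtain ⟨δ2, hδ2, h2⟩ := h2 η hη
  refine ⟨min δ1 δ2, lt_min hδ1 hδ2, fun X w hX hw hT hS' hN => ⟨hr_conj C hT hS' hN _, ?_, ?_⟩⟩
  · have h3 := h1 X w (hX.trans_le (min_le_left _ _)) (hw.trans_le (min_le_left _ _))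
    beta_reduce at h3
    rwa [e1] at h3
  · have h3 := h2 X w (hX.trans_le (min_le_right _ _)) (hw.trans_le (min_le_right _ _))
    beta_reduce at h3
    rw [e1] at h3
    exact h3

/-- An approximate pair `w, g` of unitary elements with `x w g = g w`, with uniform bounds,
`m` is the inverse of the derivative of the characteristic polynomial at `w`. -/
def LocPair {N : ℕ} (B : Basis (Fin N) k D) (a : AbsoluteValue k ℝ) (x : D) : Prop :=
  ∃ R : ℝ, ∀ δ : ℝ, 0 < δ → ∃ w g m : D, na B a w ≤ R ∧ na B a g ≤ R ∧ na B a m ≤ R ∧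
    dP C w * m = 1 ∧ na B a (star w * w - 1) < δ ∧ na B a (star g * g - 1) < δ ∧
    na B a (x * w * g - g * w) < δ

theorem lu_adj (hS : SetF k K D d s) {ι : Type} {N : ℕ} {B : Basis (Fin N) k D}
    {a : AbsoluteValue k ℝ} {f : (ι → D) → D} (hf : LU B a f) :
    LU B a fun x => C.adj (f x) := by
  have h1 := (hf.mul hf).sub ((hf.lin (Tk k C)).mul hf)
  have h2 := ((hf.lin (Tk k C)).mul (hf.lin (Tk k C))).sub ((hf.mul hf).lin (Tk k C))
  have h3 := h1.add (h2.lin ((2⁻¹ : k) • LinearMap.id))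
  have e : (fun x => C.adj (f x)) = fun x => f x * f x - Tk k C (f x) * f x +
      ((2⁻¹ : k) • LinearMap.id (R := k) (M := D)) (Tk k C (f x) * Tk k C (f x) -
        Tk k C (f x * f x)) := by
    funext x
    rw [adj_formula C hS]
    rfl
  rw [e]
  exact h3

theorem lu_hr (hS : SetF k K D d s) {ι : Type} {N : ℕ} {B : Basis (Fin N) k D}
    {a : AbsoluteValue k ℝ} {X w r : (ι → D) → D} (hX : LU B a X) (hw : LU B a w)
    (hr : LU B a r) : LU B a fun x => H948.hr C (X x) (w x) (r x) := by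
  have h1 := (hX.mul hX).mul hr
  have h2 := (hX.mul hr).mul (hw.sub (hw.lin (Tk k C)))
  have h3 := hr.mul (lu_adj C hS hw)
  exact (h1.add h2).add h3

/-- The standard intertwiner of `(x w, w)` is near the given approximate intertwiner at `w1`,
uniformly. -/
theorem near_unif (hS : SetF k K D d s) {N : ℕ} (B : Basis (Fin N) k D)
    (a : AbsoluteValue k ℝ) (x : D) (R : ℝ) {η : ℝ} (hη : 0 < η) :
    ∃ δ : ℝ, 0 < δ ∧ ∀ w1 g1 m1 : D, na B a w1 ≤ R → na B a g1 ≤ R → na B a m1 ≤ R →
      dP C w1 * m1 = 1 → na B a (x * w1 * g1 - g1 * w1) < δ → ∀ w, na B a (w - w1) < δ →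
      C.T (x * w) = C.T w → C.S (x * w) = C.S w → C.N (x * w) = C.N w →
      x * w * H948.hr C (x * w) w (g1 * m1) = H948.hr C (x * w) w (g1 * m1) * w ∧
      na B a (H948.hr C (x * w) w (g1 * m1) - g1) < η ∧
      na B a (star (H948.hr C (x * w) w (g1 * m1)) * H948.hr C (x * w) w (g1 * m1) -
        star g1 * g1) < η := by
  -- the intertwiner as a function of `w`, `g`, `m`
  have hf : LU B a fun v : Fin 3 → D => H948.hr C (x * v 0) (v 0) (v 1 * v 2) :=
    lu_hr C hS ((LU.const x).mul (LU.proj 0)) (LU.proj 0) ((LU.proj 1).mul (LU.proj 2))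
  -- the error as a function of `w`, `m`, `e`
  have hG : LU B a fun v : Fin 3 → D => x * v 0 * v 2 * v 1 + v 2 * v 0 * v 1 +
      v 2 * (v 1 * (v 0 - Tk k C (v 0))) :=
    (((((LU.const x).mul (LU.proj 0)).mul (LU.proj 2)).mul (LU.proj 1)).add
      (((LU.proj 2).mul (LU.proj 0)).mul (LU.proj 1))).add
      ((LU.proj 2).mul ((LU.proj 1).mul ((LU.proj 0).sub ((LU.proj 0).lin (Tk k C)))))
  let σ : D →ₗ[k] D := { toFun := star, map_add' := star_add, map_smul' := star_k hS }
  have hs : LU B a fun v : Fin 1 → D => σ (v 0) * v 0 := ((LU.proj 0).lin σ).mul (LU.proj 0)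
  -- the constants
  obtain ⟨-, -, hs⟩ := hs (|R| + 1)
  obtain ⟨δ0, hδ0, hs⟩ := hs η hη
  have hη' : 0 < min (min η δ0) 1 / 2 := by positivity
  obtain ⟨-, -, hf⟩ := hf (|R| + 1)
  obtain ⟨δ1, hδ1, hf⟩ := hf _ hη'
  obtain ⟨-, -, hG⟩ := hG (|R| + 1)
  obtain ⟨δ2, hδ2, hG⟩ := hG _ hη'
  refine ⟨min (min δ1 δ2) 1, by positivity, ?_⟩
  intro w1 g1 m1 hw1 hg1 hm1 hdP he w hw hT hS' hN
  have hR := le_abs_self R
  have hδa : min (min δ1 δ2) 1 ≤ δ1 := (min_le_left _ _).trans (min_le_left _ _)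
  have hδb : min (min δ1 δ2) 1 ≤ δ2 := (min_le_left _ _).trans (min_le_right _ _)
  have hδc : min (min δ1 δ2) 1 ≤ 1 := min_le_right _ _
  have hwR : na B a w ≤ |R| + 1 := by
    have e : w = (w - w1) + w1 := by abel
    rw [e]
    refine (na_add_le B a _ _).trans ?_
    linarith
  obtain ⟨hm2, hm3⟩ := dP_inv C hdP
  -- the value at the approximate point
  have h1 : na B a (H948.hr C (x * w1) w1 (g1 * m1) - g1) < min (min η δ0) 1 / 2 := by
    rw [hr_eq' C hm3, hdP, mul_one, add_sub_cancel_left]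
    have h2 := hG ![w1, m1, x * w1 * g1 - g1 * w1] ![w1, m1, 0]
      (by
        intro i
        fin_cases i
        · change na B a w1 ≤ _; linarith
        · change na B a m1 ≤ _; linarith
        · change na B a (x * w1 * g1 - g1 * w1) ≤ _; linarith [abs_nonneg R])
      (by
        intro i
        fin_cases i
        · change na B a w1 ≤ _; linarith
        · change na B a m1 ≤ _; linarith
        · change na B a (0 : D) ≤ _
          rw [na_zero]
          positivity)
      (by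
        intro i
        fin_cases i
        · change na B a (w1 - w1) < _
          rw [sub_self, na_zero]
          exact hδ2
        · change na B a (m1 - m1) < _
          rw [sub_self, na_zero]
          exact hδ2
        · change na B a (x * w1 * g1 - g1 * w1 - 0) < _
          rw [sub_zero]
          linarith)
    have e0 : x * w1 * 0 * m1 + 0 * w1 * m1 + 0 * (m1 * (w1 - Tk k C w1)) = 0 := by
      simp
    change na B a (x * w1 * (x * w1 * g1 - g1 * w1) * m1 + (x * w1 * g1 - g1 * w1) * w1 * m1 +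
      (x * w1 * g1 - g1 * w1) * (m1 * (w1 - Tk k C w1)) -
        (x * w1 * 0 * m1 + 0 * w1 * m1 + 0 * (m1 * (w1 - Tk k C w1)))) < _ at h2
    rw [e0, sub_zero] at h2
    exact h2
  have h3 : na B a (H948.hr C (x * w) w (g1 * m1) - H948.hr C (x * w1) w1 (g1 * m1)) <
      min (min η δ0) 1 / 2 := by
    refine hf ![w, g1, m1] ![w1, g1, m1] ?_ ?_ ?_
    · intro i
      fin_cases i
      · exact hwR
      · change na B a g1 ≤ _; linarith
      · change na B a m1 ≤ _; linarith
    · intro i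
      fin_cases i
      · change na B a w1 ≤ _; linarith
      · change na B a g1 ≤ _; linarith
      · change na B a m1 ≤ _; linarith
    · intro i
      fin_cases i
      · change na B a (w - w1) < _; linarith
      · change na B a (g1 - g1) < _
        rw [sub_self, na_zero]
        exact hδ1
      · change na B a (m1 - m1) < _
        rw [sub_self, na_zero]
        exact hδ1
  have h4 : na B a (H948.hr C (x * w) w (g1 * m1) - g1) < min (min η δ0) 1 := by
    have e : H948.hr C (x * w) w (g1 * m1) - g1 =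
        (H948.hr C (x * w) w (g1 * m1) - H948.hr C (x * w1) w1 (g1 * m1)) +
          (H948.hr C (x * w1) w1 (g1 * m1) - g1) := by abel
    rw [e]
    refine (na_add_le B a _ _).trans_lt ?_
    linarith
  have hηa : min (min η δ0) 1 ≤ η := (min_le_left _ _).trans (min_le_left _ _)
  have hηb : min (min η δ0) 1 ≤ δ0 := (min_le_left _ _).trans (min_le_right _ _)
  have hηc : min (min η δ0) 1 ≤ 1 := min_le_right _ _
  refine ⟨hr_conj C hT hS' hN _, h4.trans_le hηa, ?_⟩
  refine hs ![H948.hr C (x * w) w (g1 * m1)] ![g1] ?_ ?_ ?_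
  · intro i
    fin_cases i
    change na B a (H948.hr C (x * w) w (g1 * m1)) ≤ _
    have e : H948.hr C (x * w) w (g1 * m1) = (H948.hr C (x * w) w (g1 * m1) - g1) + g1 := by abel
    rw [e]
    refine (na_add_le B a _ _).trans ?_
    linarith
  · intro i
    fin_cases i
    change na B a g1 ≤ _
    linarith
  · intro i
    fin_cases i
    change na B a (H948.hr C (x * w) w (g1 * m1) - g1) < _
    linarith

/-- Near an approximate local pair there are almost unitary intertwiners. -/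
theorem nearU_of_locPair (hS : SetF k K D d s) {N : ℕ} (B : Basis (Fin N) k D) (q : Place k)
    {x : D} (h : LocPair C B q.abv x) (ε : Place k → ℝ) (hε : ∀ q, 0 < ε q) :
    ∃ R : ℝ, ∃ δ : ℝ, 0 < δ ∧ ∀ δ' : ℝ, 0 < δ' → ∃ w1 g1 m1 : D, na B q.abv w1 ≤ R ∧
      na B q.abv g1 ≤ R ∧ na B q.abv m1 ≤ R ∧ dP C w1 * m1 = 1 ∧
      na B q.abv (star w1 * w1 - 1) < δ' ∧ na B q.abv (star g1 * g1 - 1) < δ' ∧
      na B q.abv (x * w1 * g1 - g1 * w1) < δ' ∧
      ∀ w, na B q.abv (w - w1) < δ → C.T (x * w) = C.T w → C.S (x * w) = C.S w →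
        C.N (x * w) = C.N w → NearU B ε q w (x * w) := by
  obtain ⟨R, hR⟩ := h
  obtain ⟨δ, hδ, hnear⟩ := near_unif C hS B q.abv x R (half_pos (hε q))
  refine ⟨R, δ, hδ, fun δ' hδ' => ?_⟩
  obtain ⟨w1, g1, m1, h1, h2, h3, h4, h5, h6, h7⟩ :=
    hR (min (min δ δ') (ε q / 2)) (by have := hε q; positivity)
  have ha : min (min δ δ') (ε q / 2) ≤ δ := (min_le_left _ _).trans (min_le_left _ _)
  have hb : min (min δ δ') (ε q / 2) ≤ δ' := (min_le_left _ _).trans (min_le_right _ _)
  have hc : min (min δ δ') (ε q / 2) ≤ ε q / 2 := min_le_right _ _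
  refine ⟨w1, g1, m1, h1, h2, h3, h4, by linarith, by linarith, by linarith, ?_⟩
  intro w hw hT hS' hN
  obtain ⟨k1, -, k3⟩ := hnear w1 g1 m1 h1 h2 h3 h4 (h7.trans_le ha) w hw hT hS' hN
  refine ⟨_, k1, ?_⟩
  have e : star (H948.hr C (x * w) w (g1 * m1)) * H948.hr C (x * w) w (g1 * m1) - 1 =
      (star (H948.hr C (x * w) w (g1 * m1)) * H948.hr C (x * w) w (g1 * m1) - star g1 * g1) +
        (star g1 * g1 - 1) := by abel
  rw [e]
  refine (na_add_le B _ _ _).trans_lt ?_
  linarith

end near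

end Vale.Agent.P011.H929.FF
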