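import Vale.Agent.P011.H182.Nma
import Vale.Agent.P011.Arith.Hasse4

/-!
Spectral bounds for a number field embedded in a finite dimensional division algebra.
-/

open Module NumberField IsDedekindDomain

set_option linter.unusedSectionVars false

namespace Vale.Agent.P011.H929

open Vale.Agent.P011.Arith Vale.Agent.P011.Even Vale.Agent.P011.H182

section bound

variable {k D F : Type} [Field k] [NumberField k] [DivisionRing D] [Algebra k D]
  [Field F] [Algebra k F] {N : ℕ} (B : Basis (Fin N) k D)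

/-- A left inverse of an embedding expresses elements of the field by coordinates in the
algebra. -/
theorem exists_coord (i : F →ₐ[k] D) :
    ∃ c : Fin N → F, ∀ x : F, x = ∑ j, algebraMap k F (B.repr (i x) j) * c j := by
  obtain ⟨r, hr⟩ := i.toLinearMap.exists_leftInverse_of_injective
    (LinearMap.ker_eq_bot.mpr i.toRingHom.injective)
  refine ⟨fun j => r (B j), fun x => ?_⟩
  have h1 : r (i x) = x := LinearMap.congr_fun hr x
  conv_lhs => rw [← h1, ← B.sum_repr (i x), map_sum]
  refine Finset.sum_congr rfl fun j _ => ?_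
  rw [map_smul, Algebra.smul_def]

variable [NumberField F]

/-- Powers bounded at the place below give an integral element above. -/
theorem val_le_one_of_pow (i : F →ₐ[k] D) {v : HeightOneSpectrum (𝓞 k)}
    {u : HeightOneSpectrum (𝓞 F)}
    (h : u.asIdeal.comap (algebraMap (𝓞 k) (𝓞 F)) = v.asIdeal) {x : F}
    (hx : ∀ n : ℕ, Ig B (plAbv (Sum.inl v)) (i (x ^ n))) : u.valuation F x ≤ 1 := by
  obtain ⟨c, hc⟩ := exists_coord B i
  have h0 : IsNonarchimedean (plAbv (F := F) (Sum.inl u)) := isNonarch u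
  have h1 : ∀ n : ℕ, plAbv (Sum.inl u) x ^ n ≤ ∑ j, plAbv (Sum.inl u) (c j) := by
    intro n
    rw [← map_pow, hc (x ^ n)]
    refine (AbsoluteValue.sum_le _ _ _).trans (Finset.sum_le_sum fun j _ => ?_)
    rw [map_mul]
    refine mul_le_of_le_one_left (AbsoluteValue.nonneg _ _) ?_
    rw [plAbv_le_one, val_le_one_iff h, ← plAbv_le_one]
    exact hx n j
  rw [← plAbv_le_one]
  by_contra hcon
  push Not at hcon
  obtain ⟨n, hn⟩ := pow_unbounded_of_one_lt (∑ j, plAbv (Sum.inl u) (c j)) hcon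
  exact absurd (h1 n) (not_le.mpr hn)

/-- Sizes at the places above are bounded by sizes below. -/
theorem val_le_of_na (i : F →ₐ[k] D) {v : HeightOneSpectrum (𝓞 k)}
    {u : HeightOneSpectrum (𝓞 F)}
    (h : u.asIdeal.comap (algebraMap (𝓞 k) (𝓞 F)) = v.asIdeal) {C : ℝ} (hC : 1 ≤ C)
    (hm : ∀ x y, na B (plAbv (Sum.inl v)) (x * y) ≤
      C * na B (plAbv (Sum.inl v)) x * na B (plAbv (Sum.inl v)) y)
    {c : k} (hc : c ≠ 0) {x : F}
    (hx : C * na B (plAbv (Sum.inl v)) (i x) ≤ plAbv (Sum.inl v) c)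
    : u.valuation F x ≤ u.valuation F (algebraMap k F c) := by
  have hc' : algebraMap k F c ≠ 0 := (map_ne_zero _).mpr hc
  have hpos : 0 < plAbv (Sum.inl v) c := AbsoluteValue.pos _ hc
  have e : i (x / algebraMap k F c) = c⁻¹ • i x := by
    rw [div_eq_inv_mul, ← map_inv₀, ← Algebra.smul_def, map_smul]
  have h1 : C * na B (plAbv (Sum.inl v)) (i (x / algebraMap k F c)) ≤ 1 := by
    rw [e, na_smul, map_inv₀, mul_left_comm, ← div_eq_inv_mul]
    exact (div_le_one hpos).mpr hx
  have h2 : ∀ n : ℕ, C * na B (plAbv (Sum.inl v)) (i ((x / algebraMap k F c) ^ (n + 1))) ≤ 1 := by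
    intro n
    induction n with
    | zero => simpa using h1
    | succ n ih =>
      rw [pow_succ, map_mul]
      calc _ ≤ C * (C * na B (plAbv (Sum.inl v)) (i ((x / algebraMap k F c) ^ (n + 1))) *
            na B (plAbv (Sum.inl v)) (i (x / algebraMap k F c))) :=
            mul_le_mul_of_nonneg_left (hm _ _) (by linarith)
        _ = (C * na B (plAbv (Sum.inl v)) (i ((x / algebraMap k F c) ^ (n + 1)))) *
            (C * na B (plAbv (Sum.inl v)) (i (x / algebraMap k F c))) := by ring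
        _ ≤ 1 * 1 := mul_le_mul ih h1 (mul_nonneg (by linarith) (na_nonneg _ _ _)) zero_le_one
        _ = 1 := one_mul 1
  have h3 : u.valuation F (x / algebraMap k F c) ≤ 1 := by
    obtain ⟨b, hb⟩ := exists_coord B i
    have h1 : ∀ n : ℕ, plAbv (Sum.inl u) (x / algebraMap k F c) ^ (n + 1) ≤
        ∑ j, plAbv (Sum.inl u) (b j) := by
      intro n
      rw [← map_pow, hb ((x / algebraMap k F c) ^ (n + 1))]
      refine (AbsoluteValue.sum_le _ _ _).trans (Finset.sum_le_sum fun j _ => ?_)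
      rw [map_mul]
      refine mul_le_of_le_one_left (AbsoluteValue.nonneg _ _) ?_
      rw [plAbv_le_one, val_le_one_iff h, ← plAbv_le_one]
      refine (coord_le_na B _ _ _).trans ?_
      have h4 := h2 n
      have h5 := na_nonneg B (plAbv (Sum.inl v)) (i ((x / algebraMap k F c) ^ (n + 1)))
      nlinarith
    rw [← plAbv_le_one]
    by_contra hcon
    push Not at hcon
    obtain ⟨n, hn⟩ := pow_unbounded_of_one_lt (∑ j, plAbv (Sum.inl u) (b j)) hcon
    have h6 : plAbv (Sum.inl u) (x / algebraMap k F c) ^ n ≤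
        plAbv (Sum.inl u) (x / algebraMap k F c) ^ (n + 1) :=
      pow_le_pow_right₀ hcon.le (Nat.le_succ n)
    linarith [h1 n]
  rwa [map_div₀, div_le_one₀ (zero_lt_iff.mpr ((Valuation.ne_zero_iff _).mpr hc'))] at h3

/-- Sizes at the real places above are bounded by sizes below. -/
theorem real_lt_one_of_na (i : F →ₐ[k] D) (ψ : F →+* ℝ) {C : ℝ} (hC : 1 ≤ C)
    (hm : ∀ x y, na B (plAbv (Sum.inr (ψ.comp (algebraMap k F)))) (x * y) ≤
      C * na B (plAbv (Sum.inr (ψ.comp (algebraMap k F)))) x *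
        na B (plAbv (Sum.inr (ψ.comp (algebraMap k F)))) y) {x : F}
    (hx : C * na B (plAbv (Sum.inr (ψ.comp (algebraMap k F)))) (i x) < 1) : |ψ x| < 1 := by
  set a := plAbv (Sum.inr (ψ.comp (algebraMap k F))) with ha
  have h2 : ∀ n : ℕ, C * na B a (i (x ^ (n + 1))) ≤ (C * na B a (i x)) ^ (n + 1) := by
    intro n
    induction n with
    | zero => simp
    | succ n ih =>
      rw [pow_succ, map_mul]
      calc _ ≤ C * (C * na B a (i (x ^ (n + 1))) * na B a (i x)) :=
            mul_le_mul_of_nonneg_left (hm _ _) (by linarith)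
        _ = (C * na B a (i (x ^ (n + 1)))) * (C * na B a (i x)) := by ring
        _ ≤ _ := by
          rw [pow_succ (C * na B a (i x)) (n + 1)]
          exact mul_le_mul_of_nonneg_right ih (mul_nonneg (by linarith) (na_nonneg _ _ _))
  obtain ⟨b, hb⟩ := exists_coord B i
  have h3 : ∀ n : ℕ, |ψ x| ^ (n + 1) ≤
      (∑ j, |ψ (b j)|) * (C * na B a (i x)) ^ (n + 1) := by
    intro n
    rw [← abs_pow, ← map_pow, hb (x ^ (n + 1)), map_sum, Finset.sum_mul]
    refine (Finset.abs_sum_le_sum_abs _ _).trans (Finset.sum_le_sum fun j _ => ?_)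
    rw [map_mul, abs_mul, mul_comm]
    refine mul_le_mul_of_nonneg_left ?_ (abs_nonneg _)
    refine le_trans ?_ (h2 n)
    have h4 := coord_le_na B a (i (x ^ (n + 1))) j
    have h5 := na_nonneg B a (i (x ^ (n + 1)))
    have h6 : |ψ (algebraMap k F (B.repr (i (x ^ (n + 1))) j))| =
      a (B.repr (i (x ^ (n + 1))) j) := rfl
    rw [h6]
    nlinarith
  by_contra hcon
  push Not at hcon
  have h4 : ∀ n : ℕ, (1 : ℝ) ≤ (∑ j, |ψ (b j)|) * (C * na B a (i x)) ^ (n + 1) := fun n =>
    (one_le_pow₀ hcon).trans (h3 n)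
  have h5 : 0 ≤ C * na B a (i x) := mul_nonneg (by linarith) (na_nonneg _ _ _)
  have h6 : 0 < ∑ j, |ψ (b j)| := by
    by_contra hs
    push Not at hs
    have h7 := h4 0
    have h8 : 0 ≤ (C * na B a (i x)) ^ (0 + 1) := pow_nonneg h5 _
    nlinarith
  obtain ⟨n, hn⟩ := exists_pow_lt_of_lt_one (inv_pos.mpr h6) hx
  have h7 : (C * na B a (i x)) ^ (n + 1) ≤ (C * na B a (i x)) ^ n :=
    pow_le_pow_of_le_one h5 hx.le (Nat.le_succ n)
  have h8 : (∑ j, |ψ (b j)|) * (C * na B a (i x)) ^ (n + 1) < 1 := by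
    calc _ ≤ (∑ j, |ψ (b j)|) * (C * na B a (i x)) ^ n :=
          mul_le_mul_of_nonneg_left h7 h6.le
      _ < (∑ j, |ψ (b j)|) * (∑ j, |ψ (b j)|)⁻¹ := mul_lt_mul_of_pos_left hn h6
      _ = 1 := mul_inv_cancel₀ h6.ne'
  linarith [h4 n]

end bound

end Vale.Agent.P011.H929
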